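import Crest.Agent.N221.Hm.Stm
import Crest.Agent.N221.Hu.SB2
import Mathlib
import Crest.Agent.N221.Hu.Alg
import Crest.Agent.N221.Hu.Log

-- ▼ part N221/Hm/Al
section

/-! Row 221, block Hm (helper67): `AlS`, envelope, radical, purity by density of the periodic
points, smooth representative of the projector. -/

set_option autoImplicit false
set_option linter.unusedSectionVars false
set_option linter.unusedVariables false
set_option maxSynthPendingDepth 3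

open Set Filter Topology Module
open scoped ContDiff

noncomputable section

namespace Crest.Agent.N221.Hm

open Hu

namespace AlP

variable {E : Type} [NormedAddCommGroup E] [NormedSpace ℝ E] [FiniteDimensional ℝ E]
  {om : E →L[ℝ] E →L[ℝ] ℝ} {W O O' : Set E} {π : E → E →L[ℝ] E} {P : Set (Mv E)}
  {h : E → Submodule ℝ (E →L[ℝ] E)}

lemma cls_mono (hC : Cls om W π P O h) (hs : Sub O' O) : Cls om W π P O' h where
  sub := ⟨hs.opn, hs.ne, hs.sub.trans hC.sub.sub⟩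
  sm := by
    obtain ⟨p, h1, h2⟩ := hC.sm
    exact ⟨p, h1.mono hs.sub, fun z hz => h2 z (hs.sub hz)⟩
  lie := fun z hz => hC.lie z (hs.sub hz)
  sp := fun z hz => hC.sp z (hs.sub hz)
  tr0 := fun z hz => hC.tr0 z (hs.sub hz)
  eqv := fun g hg z hz h1 h2 => hC.eqv g hg z hz (hs.sub h1) (hs.sub h2)
  log := fun g hg z hz => hC.log g hg z (hs.sub hz)

/-- purity holds at the periodic points, hence frequently near every point -/
lemma pur_freq (hL : LogS) (hP : PurS) (hG : PG om W π P) (hC : Cls om W π P O h) {z : E}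
    (hz : z ∈ O) : ∃ᶠ y in 𝓝 z, π y ∈ env (h y) ∧
      ∀ a ∈ env (h y), π y * a - a * π y ∈ rad (env (h y)) := by
  rw [frequently_nhds_iff]
  intro U hzU hU
  obtain ⟨g, hg, y, hy, hper⟩ := hG.per (U ∩ O)
    ⟨hU.inter hC.sub.opn, ⟨z, hzU, hz⟩, fun y hy => hC.sub.sub hy.2⟩
  have hyW := hC.sub.sub hy.2
  have hcomm : ∀ v, π y (g.L y v) = g.L y (π y v) := fun v => by
    have := hG.eqv g hg y hper.mem hyW (by rw [hper.fix]; exact hyW) v
    rwa [hper.fix, hper.s] at this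
  obtain ⟨D, hD, hdiag⟩ := hL E (g.L y) (π y) (hG.idem y hyW) hcomm hper.hyb
  exact ⟨y, hy.1, hP E (h y) D (π y)
    ⟨hC.lie y hy.2, hC.log g hg y hy.2 hper D hD, hdiag, hC.tr0 y hy.2⟩⟩

end AlP

open AlP in
theorem alS (hL : LogS) (hP : PurS) (hE : ES) (hJ : JS) : AlS := by
  intro E _ _ _ om W π P O h hG hC
  obtain ⟨ph, hph, hprj⟩ := hC.sm
  have h0 : ∀ y ∈ O, SB.SmAt ∞ h y := fun y hy =>
    ⟨ph, SB.Cn.of_on hph hC.sub.opn hy, by
      filter_upwards [hC.sub.opn.mem_nhds hy] with x hx using hprj x hx⟩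
  obtain ⟨y1, hy1, hA1⟩ := SB.Gen.exists_smAt hC.sub.opn hC.sub.ne
    fun y hy => SB.Gen.env (h0 y hy).gen
  obtain ⟨V1, hV1, hyV1, hs1, -, hA, pA, hpA, hpA'⟩ := hA1.shrink hC.sub.opn hy1
  obtain ⟨y2, hy2, hJ1⟩ := SB.Cut.exists_smAt hV1 ⟨y1, hyV1⟩
    fun y hy => SB.Cut.rad (A := fun y => env (h y)) (hA y hy)
  obtain ⟨V, hV, hyV, hs2, -, hJ2, pJ, hpJ, hpJ'⟩ := hJ1.shrink hV1 hy2
  have hsub : Sub V O := ⟨hV, ⟨y2, hyV⟩, hs2.trans hs1⟩
  have hcont : ∀ z ∈ V, ContinuousAt π z := fun z hz =>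
    hG.cont.continuousAt (mem_of_superset (hV.mem_nhds hz) (hsub.sub.trans hC.sub.sub))
  have hmem : ∀ z ∈ V, π z ∈ env (h z) := fun z hz =>
    SB.Cut.mem_of_freq (hA z (hs2 hz)).cut (hcont z hz)
      ((pur_freq hL hP hG hC (hsub.sub hz)).mono fun y hy => hy.1)
  have hcen : ∀ z ∈ V, ∀ a ∈ env (h z), π z * a - a * π z ∈ rad (env (h z)) := fun z hz =>
    SB.Cut.map_mem_of_freq (hJ2 z hz).cut (hA z (hs2 hz))
      (μ := fun y => ContinuousLinearMap.mul ℝ (E →L[ℝ] E) (π y) -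
        (ContinuousLinearMap.mul ℝ (E →L[ℝ] E)).flip (π y))
      (((ContinuousLinearMap.mul ℝ (E →L[ℝ] E)).continuous.continuousAt.comp (hcont z hz)).sub
        ((ContinuousLinearMap.mul ℝ (E →L[ℝ] E)).flip.continuous.continuousAt.comp (hcont z hz)))
      ((pur_freq hL hP hG hC (hsub.sub hz)).mono fun y hy => hy.2)
  refine ⟨V, fun z => π z - pJ z (π z), hsub, cls_mono hC hsub,
    ⟨pA, hpA.mono hs2, fun z hz => hpA' z (hs2 hz)⟩, ⟨pJ, hpJ, hpJ'⟩, hmem, hcen,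
    fun z hz => ContDiffAt.contDiffWithinAt ?_, fun z hz => ?_⟩
  · refine hE E E (fun y => env (h y)) π pA pJ z (hpA.contDiffAt (hV1.mem_nhds (hs2 hz)))
      (hpJ.contDiffAt (hV.mem_nhds hz)) (hcont z hz) ?_
    filter_upwards [hV.mem_nhds hz] with y hy
    exact ⟨(hpA' y (hs2 hy)).1, (hpA' y (hs2 hy)).2, (hpJ' y hy).1, (hpJ' y hy).2, hmem y hy,
      hG.idem y (hC.sub.sub (hsub.sub hy)), hcen y hy⟩
  · rw [sub_sub_cancel_left]
    exact (rad (env (h z))).neg_mem ((hpJ' z hz).1 (π z))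

end Crest.Agent.N221.Hm
end
end

-- ▼ part N221/Hm/Y0
section

/-! Row 221, block Hm: the first pair `Y = J T ∩ T^J` (helper60). -/

set_option autoImplicit false
set_option linter.unusedSectionVars false
set_option maxSynthPendingDepth 3

open Set Filter Topology Module
open scoped ContDiff

noncomputable section

namespace Crest.Agent.N221.Hm

open Hu SB

namespace Y0

variable {E : Type} [NormedAddCommGroup E] [NormedSpace ℝ E] [FiniteDimensional ℝ E]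
  {om : E →L[ℝ] E →L[ℝ] ℝ} {h h' J J' : Submodule ℝ (E →L[ℝ] E)} {a a' p : E →L[ℝ] E}
  {L : E ≃L[ℝ] E} {A : Subalgebra ℝ (E →L[ℝ] E)} {v : E}

/-- the vectors killed by `J` -/
def kl (J : Submodule ℝ (E →L[ℝ] E)) : Submodule ℝ E where
  carrier := {v | ∀ j ∈ J, j v = 0}
  add_mem' := fun h h' j hj => by rw [map_add, h j hj, h' j hj, add_zero]
  zero_mem' := fun _ _ => map_zero _
  smul_mem' := fun c v h j hj => by rw [map_smul, h j hj, smul_zero]

/-- `J T ∩ T^J` -/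
def YY (J : Submodule ℝ (E →L[ℝ] E)) : Submodule ℝ E := act J ⊤ ⊓ kl J

def Adj (om : E →L[ℝ] E →L[ℝ] ℝ) (a a' : E →L[ℝ] E) : Prop := ∀ v w, om (a v) w = om v (a' w)

lemma Adj.tr (nd : ∀ v, (∀ w, om v w = 0) → v = 0) (h : Adj om a a') : tr a' = tr a := by
  let Ω : E →ₗ[ℝ] Dual ℝ E := ContinuousLinearMap.coeLM ℝ ∘ₗ (om : E →ₗ[ℝ] E →L[ℝ] ℝ)
  have hi : Function.Injective Ω := (injective_iff_map_eq_zero Ω).2 fun v hv =>
    nd v fun w => LinearMap.congr_fun hv w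
  let e := LinearMap.linearEquivOfInjective Ω hi Subspace.dual_finrank_eq.symm
  rw [Hu.tr, Hu.tr, ← LinearMap.trace_transpose', ← LinearMap.trace_conj' _ e]
  congr 1
  refine LinearMap.ext fun φ => ?_
  obtain ⟨v, rfl⟩ := e.surjective φ
  rw [LinearEquiv.conj_apply_apply, e.symm_apply_apply]
  exact LinearMap.ext fun w => (h v w).symm

lemma env_adj (sp : ∀ X ∈ h, ∀ v w, om (X v) w + om v (X w) = 0) (ha : a ∈ env h) :
    ∃ a' ∈ env h, Adj om a a' := by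
  induction ha using Algebra.adjoin_induction with
  | mem x hx =>
    exact ⟨-x, neg_mem (Algebra.subset_adjoin hx), fun v w => by
      rw [neg_apply, map_neg, eq_neg_iff_add_eq_zero, sp x hx]⟩
  | algebraMap r =>
    exact ⟨_, (env h).algebraMap_mem r, fun v w => by simp [Algebra.algebraMap_eq_smul_one]⟩
  | add x y _ _ a b =>
    obtain ⟨x', x1, x2⟩ := a
    obtain ⟨y', y1, y2⟩ := b
    exact ⟨x' + y', add_mem x1 y1, fun v w => by simp only [add_apply, map_add, x2 v w, y2 v w]⟩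
  | mul x y _ _ a b =>
    obtain ⟨x', x1, x2⟩ := a
    obtain ⟨y', y1, y2⟩ := b
    exact ⟨y' * x', mul_mem y1 x1, fun v w => (x2 _ _).trans (y2 _ _)⟩

lemma rad_adj (skew : ∀ v w, om v w = -om w v) (nd : ∀ v, (∀ w, om v w = 0) → v = 0)
    (sp : ∀ X ∈ h, ∀ v w, om (X v) w + om v (X w) = 0) (ha : a ∈ rad (env h)) :
    ∃ a' ∈ rad (env h), Adj om a a' := by
  obtain ⟨a', h1, h2⟩ := env_adj sp ha.1
  refine ⟨a', ⟨h1, fun b hb => ?_⟩, h2⟩
  obtain ⟨b', b1, b2⟩ := env_adj sp hb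
  have : Adj om (b' * a) (a' * b) := fun v w => by
    change om (b' (a v)) w = om v (a' (b w))
    rw [skew, ← b2, ← skew, h2]
  rw [this.tr nd, tr_comm, ha.2 b' b1]

lemma YY_iso (hJ : ∀ a ∈ J, ∃ a' ∈ J, Adj om a a') {u : E} (hu : u ∈ YY J) (hv : v ∈ YY J) :
    om u v = 0 := by
  refine (Submodule.span_le (p := LinearMap.ker (om.flip v : E →ₗ[ℝ] ℝ))).2 ?_ hu.1
  rintro _ ⟨j, hj, w, -, rfl⟩
  obtain ⟨j', j1, j2⟩ := hJ j hj
  exact (j2 w v).trans (by rw [hv.2 j' j1, map_zero])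

lemma YY_inv (hJ : ∀ j ∈ J, a * j ∈ J ∧ j * a ∈ J) (hv : v ∈ YY J) : a v ∈ YY J := by
  have : act J ⊤ ≤ (act J ⊤).comap (a : E →ₗ[ℝ] E) := Submodule.span_le.2 (by
    rintro _ ⟨j, hj, w, -, rfl⟩
    exact Submodule.mem_comap.2 (Submodule.subset_span ⟨a * j, (hJ j hj).1, w, trivial, rfl⟩))
  exact ⟨Submodule.mem_comap.1 (this hv.1), fun j hj => hv.2 _ (hJ j hj).2⟩

lemma YY_ne (h0 : J ≠ ⊥) {n : ℕ} (hn : pw J n = ⊥) : ∃ v ∈ YY J, v ≠ 0 := by
  have h1 : ∃ k, pw J (k + 1) ≠ ⊥ ∧ pw J (k + 2) = ⊥ := by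
    by_contra! h
    have h2 : ∀ k, pw J (k + 1) ≠ ⊥ := fun k => by
      induction k with
      | zero =>
        refine fun e => h0 ((Submodule.eq_bot_iff _).2 fun j hj => ContinuousLinearMap.ext fun w => ?_)
        exact (Submodule.eq_bot_iff _).1 e _ (Submodule.subset_span ⟨j, hj, w, trivial, rfl⟩)
      | succ k ih => exact h k ih
    refine h2 n (Submodule.span_eq_bot.2 ?_)
    rintro _ ⟨j, -, w, hw, rfl⟩
    rw [hn] at hw
    rw [(Submodule.mem_bot ℝ).1 hw, map_zero]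
  obtain ⟨k, h2, h3⟩ := h1
  obtain ⟨v, v1, v2⟩ := (Submodule.ne_bot_iff _).1 h2
  refine ⟨v, ⟨Submodule.span_mono ?_ v1, fun j hj => ?_⟩, v2⟩
  · rintro _ ⟨j, hj, w, -, rfl⟩
    exact ⟨j, hj, w, trivial, rfl⟩
  · exact (Submodule.eq_bot_iff _).1 h3 _ (Submodule.subset_span ⟨j, hj, v, v1, rfl⟩)

/-- conjugate subspaces of endomorphisms -/
def Rel (L : E ≃L[ℝ] E) (h h' : Submodule ℝ (E →L[ℝ] E)) : Prop :=
  ∀ X, X ∈ h ↔ L.conjContinuousAlgEquiv X ∈ h'

lemma Rel.symm (r : Rel L h h') : Rel L.symm h' h := fun X => by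
  rw [r, ← ContinuousLinearEquiv.symm_conjContinuousAlgEquiv, ContinuousAlgEquiv.apply_symm_apply]

lemma Rel.env (r : Rel L h h') (ha : a ∈ env h) : L.conjContinuousAlgEquiv a ∈ env h' := by
  induction ha using Algebra.adjoin_induction with
  | mem x hx => exact Algebra.subset_adjoin ((r x).1 hx)
  | algebraMap c => rw [AlgHomClass.commutes]; exact (Hu.env h').algebraMap_mem c
  | add x y _ _ a b => rw [map_add]; exact add_mem a b
  | mul x y _ _ a b => rw [map_mul]; exact mul_mem a b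

lemma tr_conj (L : E ≃L[ℝ] E) (a : E →L[ℝ] E) : tr (L.conjContinuousAlgEquiv a) = tr a :=
  LinearMap.trace_conj' (a : E →ₗ[ℝ] E) L.toLinearEquiv

lemma Rel.rad' (r : Rel L h h') (ha : a ∈ rad (Hu.env h)) :
    L.conjContinuousAlgEquiv a ∈ rad (Hu.env h') := by
  refine ⟨r.env ha.1, fun b hb => ?_⟩
  rw [← L.conjContinuousAlgEquiv.apply_symm_apply b, ← map_mul, tr_conj]
  exact ha.2 _ (r.symm.env hb)

lemma Rel.rad (r : Rel L h h') : Rel L (rad (Hu.env h)) (rad (Hu.env h')) := fun X =>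
  ⟨r.rad', fun hX => L.conjContinuousAlgEquiv.symm_apply_apply X ▸ r.symm.rad' hX⟩

lemma Rel.YY' (r : Rel L J J') (hv : v ∈ YY J) : L v ∈ YY J' := by
  have : act J ⊤ ≤ (act J' ⊤).comap (L : E →ₗ[ℝ] E) := Submodule.span_le.2 (by
    rintro _ ⟨j, hj, w, -, rfl⟩
    exact Submodule.mem_comap.2 (Submodule.subset_span ⟨_, (r j).1 hj, L w, trivial, by simp⟩))
  exact ⟨Submodule.mem_comap.1 (this hv.1), fun j hj => by simpa using hv.2 _ ((r.symm j).1 hj)⟩

lemma Rel.YY (r : Rel L J J') : v ∈ YY J ↔ L v ∈ YY J' :=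
  ⟨r.YY', fun hv => L.symm_apply_apply v ▸ r.symm.YY' hv⟩

lemma pr_eqv {p' : E →L[ℝ] E} {s : Bool} (e : pr p' s (L v) = L (p v)) (b : Bool) :
    pr p' (xor b s) (L v) = L (pr p b v) := by
  cases b
  · rwa [Bool.false_xor]
  · cases s <;> simp [pr] at e ⊢ <;> simp [← e]

end Y0

open Y0

theorem y0S (hJ : JS) : Y0S := by
  intro E _ _ _ om W π P O h e pg al hne
  obtain ⟨pJ, j1, j2⟩ := al.smJ
  have ho := al.cls.sub.opn
  have gJ : ∀ z ∈ O, Gen ∞ (fun z => rad (env (h z))) z := fun z hz =>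
    SmAt.gen ⟨pJ, Cn.of_on j1 ho hz, eventually_of_mem (ho.mem_nhds hz) j2⟩
  obtain ⟨O1, a1, a2, a3, a4⟩ := Gen.shrink ho al.cls.sub.ne fun z hz => (gJ z hz).act Gen.top
  let Y : Bool → E → Submodule ℝ E := fun b z => YY (rad (env (h z))) ⊓ (1 - pr (e z) b).ker
  have cut : ∀ b, ∀ z ∈ O1, Cut ∞ (Y b) z := fun b z hz => by
    have he := Cn.of_on al.sme ho (a3 hz)
    refine ((a4 z hz).cut.inf (Cut.ann (F := fun z => kl (rad (env (h z)))) (gJ z (a3 hz))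
      (μ := fun _ => (ContinuousLinearMap.id ℝ (E →L[ℝ] E)).flip) (Cn.const _)
      (Eventually.of_forall fun _ _ => Iff.rfl))).inf (Cut.ker (Cn.one_sub ?_))
    cases b
    exacts [he, he.one_sub]
  obtain ⟨z2, b1, b2⟩ := Cut.exists_smAt a1 a2 (cut false)
  obtain ⟨O2, b3, b4, b5, -, -, p2, b6, b7⟩ := b2.shrink a1 b1
  obtain ⟨z3, c1, c2⟩ := Cut.exists_smAt b3 ⟨_, b4⟩ fun z hz => cut true z (b5 hz)
  obtain ⟨O3, c3, c4, c5, -, -, p3, c6, c7⟩ := c2.shrink b3 c1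
  have hs : O3 ⊆ O := c5.trans (b5.trans a3)
  have mem : ∀ b, ∀ z ∈ O, ∀ v, v ∈ Y b z ↔ v ∈ YY (rad (env (h z))) ∧ pr (π z) b v = v :=
    fun b z hz v => and_congr_right fun hv => by
      have : e z v = π z v := sub_eq_zero.1 (hv.2 _ (al.ej z hz))
      change v - pr (e z) b v = 0 ↔ _
      rw [sub_eq_zero, eq_comm]
      cases b <;> simp [pr, this]
  refine ⟨O3, Y, ⟨c3, ⟨_, c4⟩, hs⟩, ⟨fun b => ?_, fun b z hz v hv => ((mem b z (hs hz) v).1 hv).2,
    fun b z hz u hu v hv => YY_iso (fun a => rad_adj pg.skew pg.nd (al.cls.sp z (hs hz))) hu.1 hv.1,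
    fun g hg z hU hz hz' b v => ?_, fun b z hz X hX v hv => ?_, fun b z hz j hj u hu => hu.1.2 j hj⟩,
    z3, c4, ?_⟩
  · cases b
    exacts [⟨p2, b6.mono c5, fun z hz => b7 z (c5 hz)⟩, ⟨p3, c6, c7⟩]
  · rw [mem _ _ (hs hz), mem _ _ (hs hz'), (Rel.rad (al.cls.eqv g hg z hU (hs hz) (hs hz'))).YY,
      pr_eqv (pg.eqv g hg z hU (al.cls.sub.sub (hs hz)) (al.cls.sub.sub (hs hz')) v),
      (g.L z).injective.eq_iff]
  · have hA : X ∈ env (h z) := Algebra.subset_adjoin hX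
    rw [mem _ _ (hs hz)] at hv ⊢
    refine ⟨YY_inv ((hJ E _).1 X hA) hv.1, ?_⟩
    have : π z (X v) = X (π z v) := sub_eq_zero.1 (hv.1.2 _ (al.cen z (hs hz) X hA))
    conv_rhs => rw [← hv.2]
    cases b <;> simp [pr, this]
  · obtain ⟨v, v1, v2⟩ := YY_ne (hne z3 (hs c4)) (hJ E _).2
    have h1 := YY_inv ((hJ E _).1 _ (al.mem z3 (hs c4))) v1
    have h2 : π z3 (π z3 v) = π z3 v :=
      congrArg (fun T : E →L[ℝ] E => T v) (pg.idem z3 (al.cls.sub.sub (hs c4)))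
    by_cases e0 : π z3 v = 0
    · exact ⟨true, (Submodule.ne_bot_iff _).2 ⟨v, (mem _ _ (hs c4) _).2 ⟨v1, by simp [pr, e0]⟩, v2⟩⟩
    · exact ⟨false, (Submodule.ne_bot_iff _).2 ⟨_, (mem _ _ (hs c4) _).2 ⟨h1, h2⟩, e0⟩⟩

end Crest.Agent.N221.Hm
end
end

-- ▼ part N221/Hm/Tau
section

/-! Row 221, block Hm: the tensor `τ` (leaf Hm-Tau, helper43). -/

set_option autoImplicit false
set_option linter.unusedSectionVars false
set_option linter.unusedVariables false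
set_option maxSynthPendingDepth 3

open Set Filter Topology Module
open scoped ContDiff

noncomputable section

namespace Crest.Agent.N221.Hm

theorem tau1S : Tau1S := by
  intro E _ _ _ om O Y p hO hp hY
  have hD : ContDiffOn ℝ ∞ (fderiv ℝ p) O := hp.fderiv_of_isOpen hO (by simp)
  have h1 : ContDiffOn ℝ ∞ (fun z => tr1 om (fderiv ℝ p z)) O :=
    contDiffOn_const.clm_comp (contDiffOn_const.clm_comp hD)
  refine ⟨h1.sub ((ContinuousLinearMap.flipₗᵢ ℝ E E (E →L[ℝ] ℝ)).contDiff.comp_contDiffOn h1),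
    fun z hz X hX hXY u hu v hv => ?_⟩
  have e : X =ᶠ[𝓝 z] fun y => p y (X y) := by
    filter_upwards [hXY, hO.mem_nhds hz] with y h1 h2 using ((hY y h2).2 _ h1).symm
  have hd : DifferentiableAt ℝ p z := (hp.contDiffAt (hO.mem_nhds hz)).differentiableAt (by simp)
  have h2 : ∀ a, fderiv ℝ X z a = p z (fderiv ℝ X z a) + fderiv ℝ p z a (X z) := fun a => by
    conv_lhs => rw [e.fderiv_eq, fderiv_clm_apply hd hX]
    rfl
  rw [tau_apply, h2 u, h2 v, map_add, map_add, add_apply, add_apply, hv _ ((hY z hz).1 _),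
    hu _ ((hY z hz).1 _), zero_add, zero_add]

theorem tau2S : Tau2S := by
  intro E _ _ _ om W π P O Y p H hO hE hp g hg z hz hzO hfz b u hu v hv w hw
  have := FiniteDimensional.complete ℝ E
  have hU := (H.opn g hg).mem_nhds hz
  have hf : ContDiffAt ℝ ∞ g.f z := (H.sm g hg).contDiffAt hU
  have hL : ∀ y ∈ g.U, fderiv ℝ g.f y = g.L y := fun y hy => (H.der g hg y hy).fderiv
  have hD : DifferentiableAt ℝ (fderiv ℝ g.f) z :=
    (hf.fderiv_right (m := ∞) (by simp)).differentiableAt (by simp)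
  have hp' : DifferentiableAt ℝ (p (xor b g.s)) (g.f z) :=
    ((hp _).1.contDiffAt (hO.mem_nhds hfz)).differentiableAt (by simp)
  have hX' : HasFDerivAt (fun y => p (xor b g.s) (g.f y) (g.L z w))
      (((fderiv ℝ (p (xor b g.s)) (g.f z)).flip (g.L z w)) ∘L (g.L z : E →L[ℝ] E)) z := by
    have h1 := (hp'.hasFDerivAt.clm_apply (hasFDerivAt_const (g.L z w) _)).comp z (H.der g hg z hz)
    simpa [Function.comp_def] using h1
  let X : E → E := fun y => (fderiv ℝ g.f y).inverse (p (xor b g.s) (g.f y) (g.L z w))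
  have hX : DifferentiableAt ℝ X z := by
    refine DifferentiableAt.clm_apply
      (DifferentiableAt.comp (g := ContinuousLinearMap.inverse) z ?_ hD) hX'.differentiableAt
    rw [hL z hz]
    exact (contDiffAt_map_inverse (n := 1) (g.L z)).differentiableAt (by simp)
  have hLX : ∀ y ∈ g.U, g.L y (X y) = p (xor b g.s) (g.f y) (g.L z w) := fun y hy => by
    simp [X, hL y hy]
  have hXz : X z = w := (g.L z).injective (by
    rw [hLX z hz]
    exact ((hp _).2 _ hfz).2 _ ((hE g hg z hz hzO hfz b w).1 hw))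
  have hXY : ∀ᶠ y in 𝓝 z, X y ∈ Y b y := by
    filter_upwards [hU, hO.mem_nhds hzO, hf.continuousAt.eventually (hO.mem_nhds hfz)] with y h1 h2 h3
    rw [hE g hg y h1 h2 h3 b, hLX y h1]
    exact ((hp _).2 _ h3).1 _
  have key : ∀ a c, om (fderiv ℝ (p (xor b g.s)) (g.f z) (g.L z a) (g.L z w)) (g.L z c) +
      om (p (xor b g.s) (g.f z) (g.L z w)) (fderiv ℝ (fderiv ℝ g.f) z a c) =
        sg g.s * om (fderiv ℝ X z a) c := fun a c => by
    have e : (fun y => om (p (xor b g.s) (g.f y) (g.L z w)) (fderiv ℝ g.f y c)) =ᶠ[𝓝 z]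
        fun y => sg g.s * om (X y) c := by
      filter_upwards [hU] with y hy
      rw [← hLX y hy, hL y hy]
      exact H.sym g hg y hy _ _
    have d1 := (om.hasFDerivAt.comp z hX').clm_apply (hD.hasFDerivAt.clm_apply (hasFDerivAt_const c z))
    have d2 := ((om.hasFDerivAt.comp z hX.hasFDerivAt).clm_apply (hasFDerivAt_const c z)).const_mul
      (sg g.s)
    have h := DFunLike.congr_fun ((d1.congr_of_eventuallyEq e.symm).unique d2) a
    simpa [hL z hz, add_comm] using h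
  have hs : IsSymmSndFDerivAt ℝ g.f z := hf.isSymmSndFDerivAt (by
    rw [minSmoothness_of_isRCLikeNormedField]; exact WithTop.coe_le_coe.2 le_top)
  have h1 := (tau1S E om O (Y b) (p b) hO (hp b).1 (hp b).2).2 z hzO X hX hXY u hu v hv
  have h2 := key u v
  have h3 := key v u
  rw [hs.eq v u] at h3
  rw [tau_apply, ← hXz, ← h1, hXz]
  linear_combination h2 - h3

end Crest.Agent.N221.Hm
end
end

-- ▼ part N221/Hm/Stab
section

/-! Row 221, block Hm: the stabiliser of the two tensors is in the class (`StabS`). -/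

set_option autoImplicit false
set_option linter.unusedSectionVars false
set_option linter.unusedVariables false
set_option maxSynthPendingDepth 3

open Set Filter Topology Module
open scoped ContDiff

noncomputable section

namespace Crest.Agent.N221.Hm

open Hu SB

namespace St

variable {E : Type} [NormedAddCommGroup E] [NormedSpace ℝ E]
  {t t' : E →L[ℝ] E →L[ℝ] E →L[ℝ] ℝ} {N₁ N₂ N₃ N₁' N₂' N₃' : Submodule ℝ E}

/-- the operators that kill `t` -/
def ti (t : E →L[ℝ] E →L[ℝ] E →L[ℝ] ℝ) (N₁ N₂ N₃ : Submodule ℝ E) : Submodule ℝ (E →L[ℝ] E) where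
  carrier := {X | TInv t N₁ N₂ N₃ X}
  add_mem' := fun h h' u hu v hv w hw => by
    have h1 := h u hu v hv w hw
    have h2 := h' u hu v hv w hw
    simp only [map_add, add_apply]
    linarith
  zero_mem' := fun u _ v _ w _ => by simp
  smul_mem' := fun c X h u hu v hv w hw => by
    have h1 := h u hu v hv w hw
    simp only [map_smul, smul_apply, smul_eq_mul]
    rw [← mul_add, ← mul_add, h1, mul_zero]

lemma ti_lie {X Z : E →L[ℝ] E} (a₁ : ∀ v ∈ N₁, X v ∈ N₁) (a₂ : ∀ v ∈ N₂, X v ∈ N₂)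
    (a₃ : ∀ v ∈ N₃, X v ∈ N₃) (b₁ : ∀ v ∈ N₁, Z v ∈ N₁) (b₂ : ∀ v ∈ N₂, Z v ∈ N₂)
    (b₃ : ∀ v ∈ N₃, Z v ∈ N₃) (h : TInv t N₁ N₂ N₃ X) (h' : TInv t N₁ N₂ N₃ Z) :
    TInv t N₁ N₂ N₃ (X * Z - Z * X) := fun u hu v hv w hw => by
  have h1 := h _ (b₁ u hu) v hv w hw
  have h2 := h u hu _ (b₂ v hv) w hw
  have h3 := h u hu v hv _ (b₃ w hw)
  have h4 := h' _ (a₁ u hu) v hv w hw
  have h5 := h' u hu _ (a₂ v hv) w hw
  have h6 := h' u hu v hv _ (a₃ w hw)
  simp only [map_sub, sub_apply, mul_apply_eq_comp]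
  linarith

lemma ti_conj (L : E ≃L[ℝ] E) {c : ℝ} (hc : c ≠ 0) (e₁ : ∀ v, v ∈ N₁ ↔ L v ∈ N₁')
    (e₂ : ∀ v, v ∈ N₂ ↔ L v ∈ N₂') (e₃ : ∀ v, v ∈ N₃ ↔ L v ∈ N₃')
    (ht : ∀ u ∈ N₁, ∀ v ∈ N₂, ∀ w ∈ N₃, t' (L u) (L v) (L w) = c * t u v w) {X : E →L[ℝ] E}
    (a₁ : ∀ v ∈ N₁, X v ∈ N₁) (a₂ : ∀ v ∈ N₂, X v ∈ N₂) (a₃ : ∀ v ∈ N₃, X v ∈ N₃) :
    TInv t N₁ N₂ N₃ X ↔ TInv t' N₁' N₂' N₃' (L.conjContinuousAlgEquiv X) := by
  have e : ∀ u ∈ N₁, ∀ v ∈ N₂, ∀ w ∈ N₃, t' (L.conjContinuousAlgEquiv X (L u)) (L v) (L w) +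
      t' (L u) (L.conjContinuousAlgEquiv X (L v)) (L w) +
      t' (L u) (L v) (L.conjContinuousAlgEquiv X (L w)) =
      c * (t (X u) v w + t u (X v) w + t u v (X w)) := fun u hu v hv w hw => by
    simp only [ContinuousLinearEquiv.conjContinuousAlgEquiv_apply_apply, L.symm_apply_apply]
    rw [ht _ (a₁ u hu) v hv w hw, ht u hu _ (a₂ v hv) w hw, ht u hu v hv _ (a₃ w hw)]
    ring
  refine ⟨fun h u hu v hv w hw => ?_, fun h u hu v hv w hw => ?_⟩
  · obtain ⟨u, rfl⟩ := L.surjective u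
    obtain ⟨v, rfl⟩ := L.surjective v
    obtain ⟨w, rfl⟩ := L.surjective w
    rw [← e₁] at hu
    rw [← e₂] at hv
    rw [← e₃] at hw
    rw [e u hu v hv w hw, h u hu v hv w hw, mul_zero]
  · have h1 := h _ ((e₁ u).1 hu) _ ((e₂ v).1 hv) _ ((e₃ w).1 hw)
    rw [e u hu v hv w hw] at h1
    exact (mul_eq_zero.1 h1).resolve_left hc

lemma sg_ne (b : Bool) : sg b ≠ 0 := by cases b <;> simp [sg]

lemma perp_conj {om : E →L[ℝ] E →L[ℝ] ℝ} (L : E ≃L[ℝ] E) {c : ℝ} (hc : c ≠ 0)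
    (ho : ∀ v w, om (L v) (L w) = c * om v w) (e : ∀ v, v ∈ N₁ ↔ L v ∈ N₁') (v : E) :
    v ∈ perp om N₁ ↔ L v ∈ perp om N₁' := by
  refine ⟨fun h y hy => ?_, fun h y hy => ?_⟩
  · obtain ⟨y, rfl⟩ := L.surjective y
    rw [ho, h y ((e y).2 hy), mul_zero]
  · have h1 := h _ ((e y).1 hy)
    rw [ho] at h1
    exact (mul_eq_zero.1 h1).resolve_left hc

lemma smAt [FiniteDimensional ℝ E] {F : Type} [NormedAddCommGroup F] [NormedSpace ℝ F]
    [FiniteDimensional ℝ F] {M : E → Submodule ℝ F} {O : Set E} (h : Sm M O) (hO : IsOpen O) {z : E}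
    (hz : z ∈ O) : SmAt ∞ M z := by
  obtain ⟨p, h1, h2⟩ := h
  exact ⟨p, Cn.of_on h1 hO hz, eventually_of_mem (hO.mem_nhds hz) h2⟩

end St

open St

theorem stabS (h3 : Log3S) (h1 : Tau1S) (h2 : Tau2S) : StabS := by
  intro E _ _ _ om W π P O h Y p hG hC hY hp
  have hO := hC.sub.opn
  have sY : ∀ b, ∀ z ∈ O, SmAt ∞ (Y b) z := fun b z hz => smAt (hY.sm b) hO hz
  have cP : ∀ b, ∀ z ∈ O, Cut ∞ (fun y => perp om (Y b y)) z := fun b z hz =>
    Cut.ann (sY b z hz).gen (μ := fun _ => om.flip) (Cn.const _) (.of_forall fun _ _ => Iff.rfl)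
  obtain ⟨O1, a1, b1, c1, d1⟩ := Cut.shrink hO hC.sub.ne (cP true)
  obtain ⟨O2, a2, b2, c2, d2⟩ := Cut.shrink a1 b1 fun z hz => cP false z (c1 hz)
  have sP : ∀ b, ∀ z ∈ O2, SmAt ∞ (fun y => perp om (Y b y)) z := fun b z hz => by
    cases b
    exacts [d2 z hz, d1 z (c2 hz)]
  let T : Bool → E → Submodule ℝ (E →L[ℝ] E) := fun b z =>
    ti (tau om (p (!b)) z) (Y b z) (perp om (Y (!b) z)) (Y (!b) z)
  have cT : ∀ b, ∀ z ∈ O2, Cut ∞ (T b) z := fun b z hz => by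
    have hz' := c1 (c2 hz)
    have h4 := Cn.of_on (h1 E om O (Y (!b)) (p (!b)) hO (hp _).1 (hp _).2).1 hO hz'
    exact Cut.tinv (sY b z hz').gen (sP (!b) z hz).gen (sY (!b) z hz').gen
      (fun u v w => ((h4.apply (Cn.const u)).apply (Cn.const v)).apply (Cn.const w))
      (.of_forall fun _ _ => Iff.rfl)
  obtain ⟨z0, hz0, h4⟩ := Cut.exists_smAt (F := fun z => h z ⊓ (T true z ⊓ T false z)) a2 b2
    fun z hz => (smAt hC.sm hO (c1 (c2 hz))).cut.inf ((cT true z hz).inf (cT false z hz))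
  obtain ⟨O', a3, b3, c3, -, -, q, q1, q2⟩ := h4.shrink a2 hz0
  have hs : O' ⊆ O := fun z hz => c1 (c2 (c3 hz))
  have e : ∀ z X, X ∈ h z ⊓ (T true z ⊓ T false z) ↔ X ∈ h z ∧ TI om Y p z X := fun z X =>
    and_congr_right fun _ => ⟨fun a b => by cases b; exacts [a.2, a.1], fun a => ⟨a true, a false⟩⟩
  have iP : ∀ b, ∀ z ∈ O, ∀ X ∈ h z, ∀ v ∈ perp om (Y b z), X v ∈ perp om (Y b z) :=
    fun b z hz X hX v hv y hy => by
      have h5 := hC.sp z hz X hX y v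
      rwa [hv _ (hY.inv b z hz X hX y hy), zero_add] at h5
  have nat : ∀ g ∈ P, ∀ z ∈ g.U, z ∈ O → g.f z ∈ O → ∀ b,
      (∀ v, v ∈ Y (!b) z ↔ g.L z v ∈ Y (!xor b g.s) (g.f z)) ∧
      (∀ v, v ∈ perp om (Y (!b) z) ↔ g.L z v ∈ perp om (Y (!xor b g.s) (g.f z))) ∧
      ∀ u ∈ Y b z, ∀ v ∈ perp om (Y (!b) z), ∀ w ∈ Y (!b) z,
        tau om (p (!xor b g.s)) (g.f z) (g.L z u) (g.L z v) (g.L z w) =
          sg g.s * tau om (p (!b)) z u v w := fun g hg z hU hz hz' b => by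
    rw [← Bool.not_xor]
    have h5 := hY.eqv g hg z hU hz hz' (!b)
    refine ⟨h5, perp_conj _ (sg_ne _) (hG.sym g hg z hU) h5, fun u hu =>
      h2 E om W π P O Y p hG hO hY.eqv hp g hg z hU hz hz' (!b) u fun y hy => ?_⟩
    rw [hG.skew, hY.iso b z hz u hu y hy, neg_zero]
  refine ⟨O', fun z => h z ⊓ (T true z ⊓ T false z), ⟨a3, ⟨z0, b3⟩, hs⟩,
    ⟨⟨a3, ⟨z0, b3⟩, hs.trans hC.sub.sub⟩, ⟨q, q1, q2⟩, fun z hz X hX Z hZ => ?_,
      fun z hz X hX => hC.sp z (hs hz) X hX.1,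
      fun z hz X hX Z hZ => hC.tr0 z (hs hz) X hX.1 Z hZ.1, fun g hg z hU hz hz' X => ?_,
      fun g hg z hz hP D hD => ?_⟩, fun z _ => e z⟩
  · rw [e] at hX hZ ⊢
    exact ⟨hC.lie z (hs hz) X hX.1 Z hZ.1, fun b => ti_lie (hY.inv _ z (hs hz) X hX.1)
      (iP _ z (hs hz) X hX.1) (hY.inv _ z (hs hz) X hX.1) (hY.inv _ z (hs hz) Z hZ.1)
      (iP _ z (hs hz) Z hZ.1) (hY.inv _ z (hs hz) Z hZ.1) (hX.2 b) (hZ.2 b)⟩
  · rw [e, e, ← hC.eqv g hg z hU (hs hz) (hs hz')]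
    refine and_congr_right fun hX => ?_
    have h5 := fun b => ti_conj (g.L z) (sg_ne g.s) (hY.eqv g hg z hU (hs hz) (hs hz') b)
      (nat g hg z hU (hs hz) (hs hz') b).2.1 (nat g hg z hU (hs hz) (hs hz') b).1
      (nat g hg z hU (hs hz) (hs hz') b).2.2 (hY.inv _ z (hs hz) X hX) (iP _ z (hs hz) X hX)
      (hY.inv _ z (hs hz) X hX)
    refine ⟨fun a b => ?_, fun a b => (h5 b).2 (a _)⟩
    obtain ⟨b, rfl⟩ : ∃ b', b = xor b' g.s := ⟨xor b g.s, by simp⟩
    exact (h5 b).1 (a b)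
  · rw [e]
    refine ⟨hC.log g hg z (hs hz) hP D hD, fun b => ?_⟩
    have h5 := hY.eqv g hg z hP.mem (hs hz) (hP.fix.symm ▸ hs hz) b
    have h6 := nat g hg z hP.mem (hs hz) (hP.fix.symm ▸ hs hz) b
    rw [hP.s, hP.fix, Bool.xor_false] at h5 h6
    exact h3 E (g.L z) D _ _ _ _ hD (fun v => (h5 v).1) (fun v => (h6.2.1 v).1)
      (fun v => (h6.1 v).1) fun u hu v hv w hw => (h6.2.2 u hu v hv w hw).trans (one_mul _)

end Crest.Agent.N221.Hm
end
end

-- ▼ part N221/Hu/Pur0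
section

/-! Row 221, A1: linear algebra tools for purity (traces on subquotients, induction on flags). -/
open Module Polynomial
set_option linter.unusedSectionVars false
namespace Crest.Agent.N221.Pur
variable {E : Type*} [AddCommGroup E] [Module ℝ E] [FiniteDimensional ℝ E]

local notation "tr" => LinearMap.trace ℝ _

lemma tr_aeval_X (g : End ℝ E) (h : ∀ k, 0 < k → tr (g ^ k) = 0) (a : ℝ[X]) :
    tr (aeval g (a * X)) = 0 := by
  induction a using Polynomial.induction_on' with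
  | add p q hp hq => rw [add_mul, map_add, map_add, hp, hq, add_zero]
  | monomial n c =>
    rw [monomial_mul_X, aeval_monomial, ← Algebra.smul_def, map_smul, h _ n.succ_pos, smul_zero]

lemma nil_of_tr (g : End ℝ E) (h : ∀ k, 0 < k → tr (g ^ k) = 0) : IsNilpotent g := by
  have hp : (X * g.charpoly : ℝ[X]) ≠ 0 := mul_ne_zero X_ne_zero g.charpoly_monic.ne_zero
  obtain ⟨q, hq, hd⟩ := exists_eq_pow_rootMultiplicity_mul_and_not_dvd _ hp 0
  have hj : 0 < rootMultiplicity 0 (X * g.charpoly : ℝ[X]) :=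
    (rootMultiplicity_pos hp).2 (by simp)
  simp only [map_zero, sub_zero] at hq hd
  generalize rootMultiplicity 0 (X * g.charpoly : ℝ[X]) = j at hq hj
  obtain ⟨j, rfl⟩ : ∃ i, j = i + 1 := ⟨j - 1, by omega⟩
  have hc : IsCoprime (X ^ (j + 1) : ℝ[X]) q :=
    (irreducible_X.coprime_iff_not_dvd.2 hd).pow_left
  obtain ⟨a, b, hab⟩ := hc
  have h0 : aeval g (X ^ (j + 1) * q) = 0 := by
    rw [← hq, map_mul, LinearMap.aeval_self_charpoly, mul_zero]
  have he : IsIdempotentElem (aeval g (a * X ^ (j + 1))) := by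
    have : a * X ^ (j + 1) * (a * X ^ (j + 1)) = a * X ^ (j + 1) - a * b * (X ^ (j + 1) * q) := by
      linear_combination (a * X ^ (j + 1)) * hab
    rw [IsIdempotentElem, ← map_mul, this, map_sub, map_mul _ (a * b), h0, mul_zero, sub_zero]
  have ht : tr (aeval g (a * X ^ (j + 1))) = 0 := by
    rw [pow_succ, ← mul_assoc]; exact tr_aeval_X g h _
  have hz := LinearMap.IsIdempotentElem.eq_zero_of_trace_eq_zero he ht
  refine ⟨j + 1, ?_⟩
  have : (X ^ (j + 1) : ℝ[X]) = X ^ (j + 1) * (a * X ^ (j + 1)) + b * (X ^ (j + 1) * q) := by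
    linear_combination (-(X ^ (j + 1) : ℝ[X])) * hab
  have h2 := congrArg (aeval g) this
  rw [map_add, map_mul _ (X ^ (j + 1)), hz, map_mul _ b, h0] at h2
  simpa using h2

lemma tr_idem_nonneg {e : End ℝ E} (he : IsIdempotentElem e) : 0 ≤ tr e := by
  rw [(LinearMap.IsIdempotentElem.isProj_range e he).trace]; positivity

lemma mtr_cube {n : Type*} [Fintype n] [DecidableEq n] (g : Matrix n n ℝ) (h : g ^ 3 = -g) :
    g.trace = 0 := by
  open Matrix in
  set e := -(g * g) with he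
  have h3 : g * g * g = -g := by rw [← h]; noncomm_ring
  have eg : e * g = g := by rw [he, neg_mul, h3, neg_neg]
  set S := eᵀ * e + gᵀ * g + (1 - e)ᵀ * (1 - e) with hS
  have a1 : gᵀ * eᵀ = gᵀ := by rw [← transpose_mul, eg]
  have a2 : gᵀ * gᵀ = -eᵀ := by rw [← transpose_mul, he, transpose_neg, neg_neg]
  have a3 : (1 - e) * g = 0 := by rw [sub_mul, one_mul, eg, sub_self]
  have a4 : gᵀ * (1 - e)ᵀ = 0 := by rw [← transpose_mul, a3, transpose_zero]
  have a5 : g * g = -e := by rw [he, neg_neg]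
  have key : gᵀ * S = -(S * g) := by
    rw [hS, mul_add, mul_add, add_mul, add_mul, ← mul_assoc, ← mul_assoc, ← mul_assoc, a1, a2, a4,
      mul_assoc, mul_assoc, mul_assoc, eg, a5, a3]
    noncomm_ring
  have hu : IsUnit S := by
    rw [← Matrix.mulVec_injective_iff_isUnit]
    refine (injective_iff_map_eq_zero (Matrix.mulVecLin S)).2 fun x hx => ?_
    have q (A : Matrix n n ℝ) : x ⬝ᵥ ((Aᵀ * A) *ᵥ x) = (A *ᵥ x) ⬝ᵥ (A *ᵥ x) := by
      rw [← mulVec_mulVec, dotProduct_mulVec, vecMul_transpose]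
    have nn (y : n → ℝ) : 0 ≤ y ⬝ᵥ y := Finset.sum_nonneg fun i _ => mul_self_nonneg _
    have : x ⬝ᵥ (S *ᵥ x) = 0 := by rw [show S *ᵥ x = 0 from hx, dotProduct_zero]
    rw [hS, add_mulVec, add_mulVec, dotProduct_add, dotProduct_add, q, q, q] at this
    have b1 : e *ᵥ x = 0 := dotProduct_self_eq_zero.1 (by
      linarith [nn (e *ᵥ x), nn (g *ᵥ x), nn ((1 - e) *ᵥ x)])
    have b2 : (1 - e) *ᵥ x = 0 := dotProduct_self_eq_zero.1 (by
      linarith [nn (e *ᵥ x), nn (g *ᵥ x), nn ((1 - e) *ᵥ x)])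
    rwa [sub_mulVec, b1, one_mulVec, sub_zero] at b2
  obtain ⟨u, hu⟩ := hu
  have : gᵀ = -((u : Matrix n n ℝ) * g * (u⁻¹ : (Matrix n n ℝ)ˣ)) := by
    rw [← neg_mul, hu, ← key, ← hu, mul_assoc, Units.mul_inv, mul_one]
  have h2 := congrArg Matrix.trace this
  rw [trace_transpose, trace_neg, trace_units_conj] at h2
  linarith

lemma tr_cube (g : End ℝ E) (h : g ^ 3 = -g) : tr g = 0 := by
  let b := Module.finBasis ℝ E
  rw [LinearMap.trace_eq_matrix_trace ℝ b]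
  apply mtr_cube
  have := congrArg (LinearMap.toMatrixAlgEquiv b) h
  rw [map_pow, map_neg] at this
  exact this

/-- `f` maps `M` to `M'`. -/
def To (f : End ℝ E) (M M' : Submodule ℝ E) : Prop := ∀ v ∈ M, f v ∈ M'

/-- `f` preserves `M₀` and `M₁`. -/
def Pr (M₀ M₁ : Submodule ℝ E) (f : End ℝ E) : Prop := To f M₀ M₀ ∧ To f M₁ M₁

lemma To.mul {f g : End ℝ E} {M M' M'' : Submodule ℝ E} (hf : To f M' M'') (hg : To g M M') :
    To (f * g) M M'' := fun v hv => hf _ (hg v hv)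

/-- The operators preserving `M₀` and `M₁`. -/
def PrA (M₀ M₁ : Submodule ℝ E) : Subalgebra ℝ (End ℝ E) where
  carrier := {f | Pr M₀ M₁ f}
  mul_mem' hf hg := ⟨hf.1.mul hg.1, hf.2.mul hg.2⟩
  add_mem' hf hg := ⟨fun v hv => M₀.add_mem (hf.1 v hv) (hg.1 v hv),
    fun v hv => M₁.add_mem (hf.2 v hv) (hg.2 v hv)⟩
  algebraMap_mem' c := ⟨fun _ hv => M₀.smul_mem c hv, fun _ hv => M₁.smul_mem c hv⟩

lemma exists_pj (M : Submodule ℝ E) : ∃ p : End ℝ E, LinearMap.IsProj M p := by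
  obtain ⟨N, hN⟩ := M.exists_isCompl
  exact ⟨M.subtype ∘ₗ M.projectionOnto N hN, fun x => (M.projectionOnto N hN x).2,
    fun x hx => congrArg Subtype.val (Submodule.projectionOnto_apply_left hN ⟨x, hx⟩)⟩

/-- A projection onto `M`. -/
noncomputable def pj (M : Submodule ℝ E) : End ℝ E := (exists_pj M).choose

lemma pj_isProj (M : Submodule ℝ E) : LinearMap.IsProj M (pj M) := (exists_pj M).choose_spec

/-- Trace on an invariant subspace. -/
noncomputable def tq (M : Submodule ℝ E) : End ℝ E →ₗ[ℝ] ℝ :=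
  (LinearMap.trace ℝ E) ∘ₗ LinearMap.mulRight ℝ (pj M)

lemma tq_eq {M : Submodule ℝ E} {f p : End ℝ E} (hf : To f M M) (hp : LinearMap.IsProj M p) :
    tq M f = tr (f * p) := by
  have h1 : f * pj M = p * (f * pj M) := by
    ext v; exact (hp.map_id _ (hf _ ((pj_isProj M).map_mem v))).symm
  have h2 : pj M * p = p := by
    ext v; exact (pj_isProj M).map_id _ (hp.map_mem v)
  change tr (f * pj M) = _
  rw [h1, LinearMap.trace_mul_comm, mul_assoc, h2]

lemma tq_top (f : End ℝ E) : tq ⊤ f = tr f := by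
  rw [tq_eq (p := 1) (fun _ _ => Submodule.mem_top) ⟨fun _ => Submodule.mem_top, fun _ _ => rfl⟩,
    mul_one]

lemma tq_bot (f : End ℝ E) : tq ⊥ f = 0 := by
  rw [tq_eq (p := 0) (fun v hv => by simp [(Submodule.mem_bot ℝ).1 hv])
    ⟨fun _ => by simp, fun v hv => by simp [(Submodule.mem_bot ℝ).1 hv]⟩, mul_zero, map_zero]

/-- The action on the subquotient `M₁ / M₀`, realised inside `End E`. -/
lemma exists_phi {M₀ M₁ : Submodule ℝ E} (hle : M₀ ≤ M₁) : ∃ φ : End ℝ E →ₗ[ℝ] End ℝ E,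
    (∀ f ∈ PrA M₀ M₁, ∀ g ∈ PrA M₀ M₁, φ (f * g) = φ f * φ g) ∧
    (∀ f ∈ PrA M₀ M₁, φ f = 0 ↔ To f M₁ M₀) ∧
    (∀ f ∈ PrA M₀ M₁, tr (φ f) = tq M₁ f - tq M₀ f) := by
  have P0 := pj_isProj M₀
  have P1 := pj_isProj M₁
  set q : End ℝ E := pj M₁ - pj M₀ * pj M₁ with hq
  have q1 (v) : q v ∈ M₁ := M₁.sub_mem (P1.map_mem v) (hle (P0.map_mem _))
  have q2 (v) (hv : v ∈ M₁) : q v = v - pj M₀ v := by
    simp [hq, P1.map_id v hv]
  have q0 (v) (hv : v ∈ M₀) : q v = 0 := by rw [q2 v (hle hv), P0.map_id v hv, sub_self]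
  have qq (v) : q (q v) = q v := by
    conv_lhs => rw [hq]
    have : q v = pj M₁ v - pj M₀ (pj M₁ v) := rfl
    rw [← hq, this, map_sub, q0 _ (P0.map_mem _), sub_zero, q2 _ (P1.map_mem v)]
  refine ⟨LinearMap.mulLeft ℝ q ∘ₗ LinearMap.mulRight ℝ q, fun f hf g hg => ?_,
    fun f hf => ⟨fun h v hv => ?_, fun h => ?_⟩, fun f hf => ?_⟩
  · ext v
    change q (f (g (q v))) = q (f (q (q (g (q v)))))
    rw [qq, q2 _ (hg.2 _ (q1 v)), map_sub, map_sub, q0 _ (hf.1 _ (P0.map_mem _)), sub_zero]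
  · have h1 : q (f (q v)) = 0 := LinearMap.congr_fun h v
    rw [q2 _ (hf.2 _ (q1 v)), sub_eq_zero] at h1
    have : f v = f (q v) + f (pj M₀ v) := by rw [q2 v hv, map_sub, sub_add_cancel]
    rw [this, h1]
    exact M₀.add_mem (P0.map_mem _) (hf.1 _ (P0.map_mem _))
  · ext v; exact q0 _ (h _ (q1 v))
  · change tr (q * (f * q)) = _
    have : q * q = q := by ext v; exact qq v
    rw [LinearMap.trace_mul_comm, mul_assoc, this, tq_eq hf.2 P1,
      tq_eq (p := pj M₀ * pj M₁) hf.1 ⟨fun v => P0.map_mem _, fun v hv => by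
        simp [P1.map_id v (hle hv), P0.map_id v hv]⟩, hq, mul_sub, map_sub]

/-- `M` is invariant under `h`. -/
def Inv (h : Set (End ℝ E)) (M : Submodule ℝ E) : Prop := ∀ X ∈ h, To X M M

/-- `M₁ / M₀` is an irreducible subquotient. -/
structure Irr (h : Set (End ℝ E)) (M₀ M₁ : Submodule ℝ E) : Prop where
  i0 : Inv h M₀
  i1 : Inv h M₁
  lt : M₀ < M₁
  mx : ∀ M, Inv h M → M₀ ≤ M → M ≤ M₁ → M = M₀ ∨ M = M₁

lemma ind {h : Set (End ℝ E)} {P : Submodule ℝ E → Submodule ℝ E → Prop}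
    (rf : ∀ M, Inv h M → P M M) (ir : ∀ M₀ M₁, Irr h M₀ M₁ → P M₀ M₁)
    (tn : ∀ M₀ M₁ M₂, Inv h M₀ → Inv h M₁ → Inv h M₂ → M₀ ≤ M₁ → M₁ ≤ M₂ → P M₀ M₁ → P M₁ M₂ →
      P M₀ M₂) {M₀ M₁} (h0 : Inv h M₀) (h1 : Inv h M₁) (hle : M₀ ≤ M₁) : P M₀ M₁ := by
  induction hn : finrank ℝ M₁ - finrank ℝ M₀ using Nat.strong_induction_on
    generalizing M₀ M₁ with
  | _ n ih =>
  rcases hle.eq_or_lt with rfl | hlt
  · exact rf _ h0
  by_cases hm : ∀ M, Inv h M → M₀ ≤ M → M ≤ M₁ → M = M₀ ∨ M = M₁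
  · exact ir _ _ ⟨h0, h1, hlt, hm⟩
  push Not at hm
  obtain ⟨M, hM, a, b, c, d⟩ := hm
  have a' := Submodule.finrank_lt_finrank_of_lt (lt_of_le_of_ne a c.symm)
  have b' := Submodule.finrank_lt_finrank_of_lt (lt_of_le_of_ne b d)
  exact tn _ _ _ h0 hM h1 a b (ih _ (by omega) h0 hM a rfl) (ih _ (by omega) hM h1 b rfl)

lemma inv_top (h : Set (End ℝ E)) : Inv h ⊤ := fun _ _ _ _ => trivial

lemma inv_bot (h : Set (End ℝ E)) : Inv h ⊥ := fun _ _ v hv => by
  simp [(Submodule.mem_bot ℝ).1 hv]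

/-- Between two invariant subspaces there is an irreducible bottom step. -/
lemma exists_irr {h : Set (End ℝ E)} {M₀ M₁} (h0 : Inv h M₀) (h1 : Inv h M₁) (hlt : M₀ < M₁) :
    ∃ M, M ≤ M₁ ∧ Irr h M₀ M := by
  refine ind (P := fun A B => A < B → ∃ M, M ≤ B ∧ Irr h A M) (fun _ _ h => absurd h (lt_irrefl _))
    (fun A B hi _ => ⟨B, le_rfl, hi⟩) (fun A B C _ _ _ a b p q hl => ?_) h0 h1 hlt.le hlt
  rcases a.eq_or_lt with rfl | a
  · exact q hl
  · obtain ⟨M, hM, hi⟩ := p a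
    exact ⟨M, hM.trans b, hi⟩

attribute [local instance 100] LieRing.ofAssociativeRing in
/-- Engel's theorem as a flag. -/
lemma engel (L : Submodule ℝ (End ℝ E)) (hl : ∀ X ∈ L, ∀ Y ∈ L, X * Y - Y * X ∈ L)
    (hn : ∀ X ∈ L, IsNilpotent X) : ∃ F : ℕ → Submodule ℝ E, F 0 = ⊤ ∧
      (∀ k, ∀ X ∈ L, To X (F k) (F (k + 1))) ∧ ∃ k, F k = ⊥ := by
  let L' : LieSubalgebra ℝ (End ℝ E) := { L with lie_mem' := fun {x y} hx hy => hl x hx y hy }
  have : LieModule.IsNilpotent L' E :=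
    (LieModule.isNilpotent_iff_forall' (R := ℝ)).2 fun x => hn x x.2
  obtain ⟨k, hk⟩ := LieModule.IsNilpotent.nilpotent ℝ L' E
  refine ⟨fun k => (LieModule.lowerCentralSeries ℝ L' E k).toSubmodule, by simp,
    fun k X hX v hv => ?_, k, by simp [hk]⟩
  have := LieSubmodule.lie_mem_lie (I := (⊤ : LieIdeal ℝ L')) (x := ⟨X, hX⟩) trivial hv
  rw [← LieModule.lowerCentralSeries_succ] at this
  exact this

end Crest.Agent.N221.Pur
end

-- ▼ part N221/Hu/Pur1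
section

/-! Row 221, A1: the ideal `rad ∩ [h,h]` kills every irreducible subquotient (Cartan's criterion). -/
open Module Polynomial
set_option linter.unusedSectionVars false
namespace Crest.Agent.N221.Pur
variable {E : Type*} [AddCommGroup E] [Module ℝ E] [FiniteDimensional ℝ E]

local notation "tr" => LinearMap.trace ℝ _

/-- span of the commutators -/
def br (A B : Submodule ℝ (End ℝ E)) : Submodule ℝ (End ℝ E) :=
  Submodule.span ℝ {x | ∃ a ∈ A, ∃ b ∈ B, a * b - b * a = x}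

lemma mem_br {A B : Submodule ℝ (End ℝ E)} {a b} (ha : a ∈ A) (hb : b ∈ B) :
    a * b - b * a ∈ br A B := Submodule.subset_span ⟨a, ha, b, hb, rfl⟩

lemma br_le {A B C : Submodule ℝ (End ℝ E)} (h : ∀ a ∈ A, ∀ b ∈ B, a * b - b * a ∈ C) :
    br A B ≤ C := Submodule.span_le.2 (by rintro _ ⟨a, ha, b, hb, rfl⟩; exact h a ha b hb)

variable {h : Set (End ℝ E)} {M₀ M₁ : Submodule ℝ E}

lemma Irr.pr (hi : Irr h M₀ M₁) {X} (hX : X ∈ h) : X ∈ PrA M₀ M₁ := ⟨hi.i0 X hX, hi.i1 X hX⟩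

lemma Irr.kill (hi : Irr h M₀ M₁) (L : Set (End ℝ E)) (hL : ∀ W ∈ L, To W M₀ M₀)
    (id : ∀ X ∈ h, ∀ W ∈ L, X * W - W * X ∈ L ∨ To (X * W - W * X) M₁ M₀)
    (ex : ∃ v ∈ M₁, v ∉ M₀ ∧ ∀ W ∈ L, W v ∈ M₀) : ∀ W ∈ L, To W M₁ M₀ := by
  let K : Submodule ℝ E :=
    { carrier := {v | v ∈ M₁ ∧ ∀ W ∈ L, W v ∈ M₀}
      add_mem' := fun ha hb => ⟨M₁.add_mem ha.1 hb.1, fun W hW => by
        rw [map_add]; exact M₀.add_mem (ha.2 W hW) (hb.2 W hW)⟩
      zero_mem' := ⟨M₁.zero_mem, fun W _ => by simp⟩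
      smul_mem' := fun c _ ha => ⟨M₁.smul_mem c ha.1, fun W hW => by
        rw [map_smul]; exact M₀.smul_mem c (ha.2 W hW)⟩ }
  have hK : Inv h K := fun X hX v hv => ⟨hi.i1 X hX v hv.1, fun W hW => by
    have : W (X v) = X (W v) - (X * W - W * X) v := by simp
    rw [this]
    exact M₀.sub_mem (hi.i0 X hX _ (hv.2 W hW))
      ((id X hX W hW).elim (fun h' => hv.2 _ h') fun h' => h' v hv.1)⟩
  rcases hi.mx K hK (fun v hv => ⟨hi.lt.le hv, fun W hW => hL W hW v hv⟩) (fun v hv => hv.1)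
    with e | e
  · obtain ⟨v, a, b, c⟩ := ex
    exact absurd (e ▸ (⟨a, c⟩ : v ∈ K)) b
  · exact fun W hW v hv => (show v ∈ K from e ▸ hv).2 W hW

lemma ex_of_nil (hlt : M₀ < M₁) {V : End ℝ E} (hV : To V M₁ M₁) {j : ℕ} (hj : To (V ^ j) M₁ M₀) :
    ∃ v ∈ M₁, v ∉ M₀ ∧ ∀ W ∈ ({V} : Set (End ℝ E)), W v ∈ M₀ := by
  obtain ⟨k, a, b⟩ := Nat.exists_not_and_succ_of_not_zero_of_exists
    (p := fun j => To (V ^ j) M₁ M₀) (fun h0 => hlt.2 fun v hv => by simpa using h0 v hv) ⟨j, hj⟩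
  simp only [To, not_forall] at a
  obtain ⟨v, hv, a⟩ := a
  have hp : ∀ i, (V ^ i) v ∈ M₁ := fun i => by
    induction i with
    | zero => simpa
    | succ i ih => rw [pow_succ']; exact hV _ ih
  refine ⟨_, hp k, a, ?_⟩
  rintro _ rfl
  have := b v hv
  rwa [pow_succ'] at this

/-- Operators that commute with `h` on `M₁ / M₀`. -/
def Cen (h : Set (End ℝ E)) (M₀ M₁ : Submodule ℝ E) (hh : ∀ X ∈ h, X ∈ PrA M₀ M₁) :
    Subalgebra ℝ (End ℝ E) where
  carrier := {S | S ∈ PrA M₀ M₁ ∧ ∀ X ∈ h, To (X * S - S * X) M₁ M₀}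
  mul_mem' {S S'} a b := ⟨(PrA M₀ M₁).mul_mem a.1 b.1, fun X hX v hv => by
    have : (X * (S * S') - S * S' * X) v = (X * S - S * X) (S' v) + S ((X * S' - S' * X) v) := by
      simp
    rw [this]
    exact M₀.add_mem (a.2 X hX _ (b.1.2 v hv)) (a.1.1 _ (b.2 X hX v hv))⟩
  add_mem' {S S'} a b := ⟨(PrA M₀ M₁).add_mem a.1 b.1, fun X hX v hv => by
    have : (X * (S + S') - (S + S') * X) v = (X * S - S * X) v + (X * S' - S' * X) v := by
      simp; abel
    rw [this]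
    exact M₀.add_mem (a.2 X hX v hv) (b.2 X hX v hv)⟩
  algebraMap_mem' c := ⟨(PrA M₀ M₁).algebraMap_mem c, fun X _ v _ => by
    rw [← Algebra.commutes, sub_self]; exact M₀.zero_mem⟩

lemma Irr.kill1 (hi : Irr h M₀ M₁) {S} (hS : S ∈ Cen h M₀ M₁ fun _ => hi.pr) {j : ℕ}
    (hj : To (S ^ j) M₁ M₀) : To S M₁ M₀ :=
  hi.kill {S} (by rintro _ rfl; exact hS.1.1) (by rintro X hX _ rfl; exact Or.inr (hS.2 X hX))
    (ex_of_nil hi.lt hS.1.2 hj) S rfl

/-- The properties of the subquotient map. -/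
structure Phi (M₀ M₁ : Submodule ℝ E) (φ : End ℝ E →ₗ[ℝ] End ℝ E) : Prop where
  mul : ∀ f ∈ PrA M₀ M₁, ∀ g ∈ PrA M₀ M₁, φ (f * g) = φ f * φ g
  zero : ∀ f ∈ PrA M₀ M₁, φ f = 0 ↔ To f M₁ M₀
  trc : ∀ f ∈ PrA M₀ M₁, tr (φ f) = tq M₁ f - tq M₀ f

lemma phi (hle : M₀ ≤ M₁) : ∃ φ, Phi M₀ M₁ φ := by
  obtain ⟨φ, a, b, c⟩ := exists_phi hle
  exact ⟨φ, a, b, c⟩

variable {φ : End ℝ E →ₗ[ℝ] End ℝ E}

lemma Phi.comm (hφ : Phi M₀ M₁ φ) {f g} (hf : f ∈ PrA M₀ M₁) (hg : g ∈ PrA M₀ M₁)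
    (hc : To (f * g - g * f) M₁ M₀) : Commute (φ f) (φ g) := by
  have := (hφ.zero _ ((PrA M₀ M₁).sub_mem ((PrA M₀ M₁).mul_mem hf hg)
    ((PrA M₀ M₁).mul_mem hg hf))).2 hc
  rwa [map_sub, hφ.mul f hf g hg, hφ.mul g hg f hf, sub_eq_zero] at this

lemma Phi.pow (hφ : Phi M₀ M₁ φ) {f} (hf : f ∈ PrA M₀ M₁) (k : ℕ) :
    φ (f ^ (k + 1)) = φ f ^ (k + 1) := by
  induction k with
  | zero => simp
  | succ k ih => rw [pow_succ, hφ.mul _ ((PrA M₀ M₁).pow_mem hf _) _ hf, ih, ← pow_succ]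

lemma Phi.tr_br (hφ : Phi M₀ M₁ φ) {A B : Submodule ℝ (End ℝ E)} (hA : ∀ X ∈ A, X ∈ PrA M₀ M₁)
    (hB : ∀ X ∈ B, X ∈ PrA M₀ M₁) {a : End ℝ E} (ha : ∀ W ∈ B, Commute a (φ W)) :
    ∀ Z ∈ br A B, tr (a * φ Z) = 0 := by
  intro Z hZ
  induction hZ using Submodule.span_induction with
  | mem x hx =>
    obtain ⟨X, hX, W, hW, rfl⟩ := hx
    rw [map_sub, hφ.mul _ (hA X hX) _ (hB W hW), hφ.mul _ (hB W hW) _ (hA X hX), mul_sub, map_sub,
      ← mul_assoc, ← mul_assoc, (ha W hW).eq, LinearMap.trace_mul_comm, ← mul_assoc, sub_self]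
  | zero => simp
  | add x y _ _ hx hy => rw [map_add, mul_add, map_add, hx, hy, add_zero]
  | smul c x _ hx => rw [map_smul, mul_smul_comm, map_smul, hx, smul_zero]

lemma Phi.nil (hφ : Phi M₀ M₁ φ) {A B : Submodule ℝ (End ℝ E)} (hA : ∀ X ∈ A, X ∈ PrA M₀ M₁)
    (hB : ∀ X ∈ B, X ∈ PrA M₀ M₁) {V} (hV : V ∈ br A B) (hV' : V ∈ PrA M₀ M₁)
    (ha : ∀ W ∈ B, Commute (φ V) (φ W)) : ∃ j, To (V ^ j) M₁ M₀ := by
  obtain ⟨j, hj⟩ := nil_of_tr (φ V) fun k hk => by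
    obtain ⟨k, rfl⟩ : ∃ i, k = i + 1 := ⟨k - 1, by omega⟩
    rw [pow_succ]
    exact hφ.tr_br hA hB (fun W hW => (ha W hW).pow_left k) V hV
  refine ⟨j + 1, (hφ.zero _ ((PrA M₀ M₁).pow_mem hV' _)).1 ?_⟩
  rw [hφ.pow hV', pow_succ, hj, zero_mul]

attribute [local instance 100] LieRing.ofAssociativeRing in
lemma cartan (m : Submodule ℝ (End ℝ E)) (hl : ∀ X ∈ m, ∀ Y ∈ m, X * Y - Y * X ∈ m)
    (ht : ∀ X ∈ m, ∀ Y ∈ m, tr (X * Y) = 0) : ∀ W ∈ br m m, IsNilpotent W := by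
  let L : LieSubalgebra ℝ (End ℝ E) := { m with lie_mem' := fun {x y} hx hy => hl x hx y hy }
  have h0 : LieModule.traceForm ℝ L E = 0 := by
    ext x y; exact ht x x.2 y y.2
  have h1 := (LieModule.isNilpotent_iff_forall' (R := ℝ)).1
    (LieModule.isNilpotent_derivedSeries_of_traceForm_eq_zero h0)
  intro W hW
  have : ∃ x : L, x ∈ LieAlgebra.derivedSeries ℝ L 1 ∧ (x : End ℝ E) = W := by
    induction hW using Submodule.span_induction with
    | mem x hx =>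
      obtain ⟨X, hX, Y, hY, rfl⟩ := hx
      exact ⟨⁅(⟨X, hX⟩ : L), (⟨Y, hY⟩ : L)⁆,
        LieSubmodule.lie_mem_lie (LieSubmodule.mem_top _) (LieSubmodule.mem_top _), rfl⟩
    | zero => exact ⟨0, zero_mem _, rfl⟩
    | add x y _ _ hx hy =>
      obtain ⟨a, ha, rfl⟩ := hx
      obtain ⟨b, hb, rfl⟩ := hy
      exact ⟨a + b, add_mem ha hb, rfl⟩
    | smul c x _ hx =>
      obtain ⟨a, ha, rfl⟩ := hx
      exact ⟨c • a, SMulMemClass.smul_mem c ha, rfl⟩
  obtain ⟨x, hx, rfl⟩ := this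
  exact h1 ⟨x, hx⟩

/-- An ideal `m ≤ [h,h]` with zero trace form kills every irreducible subquotient. -/
theorem Irr.ideal {h m : Submodule ℝ (End ℝ E)} (hi : Irr (h : Set (End ℝ E)) M₀ M₁)
    (mh : m ≤ h) (mb : m ≤ br h h) (id : ∀ X ∈ h, ∀ W ∈ m, X * W - W * X ∈ m)
    (ht : ∀ X ∈ m, ∀ Y ∈ m, tr (X * Y) = 0) : ∀ W ∈ m, To W M₁ M₀ := by
  obtain ⟨φ, hφ⟩ := phi hi.lt.le
  have ph : ∀ X ∈ h, X ∈ PrA M₀ M₁ := fun X hX => hi.pr hX
  have pm : ∀ X ∈ m, X ∈ PrA M₀ M₁ := fun X hX => ph X (mh hX)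
  have nm : br m m ≤ m := br_le fun a ha b hb => id a (mh ha) b hb
  have bm : br h m ≤ m := br_le id
  have idb {A B : Submodule ℝ (End ℝ E)} (hA : ∀ X ∈ h, ∀ W ∈ A, X * W - W * X ∈ A)
      (hB : ∀ X ∈ h, ∀ W ∈ B, X * W - W * X ∈ B) :
      ∀ X ∈ h, ∀ W ∈ br A B, X * W - W * X ∈ br A B := by
    intro X hX W hW
    induction hW using Submodule.span_induction with
    | mem x hx =>
      obtain ⟨a, ha, b, hb, rfl⟩ := hx
      convert (br A B).add_mem (mem_br (hA X hX a ha) hb) (mem_br ha (hB X hX b hb)) using 1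
      noncomm_ring
    | zero => simp
    | add x y _ _ hx hy => convert (br A B).add_mem hx hy using 1; noncomm_ring
    | smul c x _ hx =>
      convert (br A B).smul_mem c hx using 1
      rw [mul_smul_comm, smul_mul_assoc, smul_sub]
  -- `[m,m]` acts as zero
  have s1 : ∀ W ∈ br m m, To W M₁ M₀ := by
    obtain ⟨F, F0, Fs, k, Fk⟩ := engel (br m m)
      (fun X hX Y hY => mem_br (nm hX) (nm hY))
      (cartan m (fun X hX Y hY => id X (mh hX) Y hY) ht)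
    obtain ⟨j, a, b⟩ := Nat.exists_not_and_succ_of_not_zero_of_exists
      (p := fun j => M₁ ⊓ F j ≤ M₀) (by simpa [F0] using hi.lt.2) ⟨k, by simp [Fk]⟩
    obtain ⟨v, hv, a⟩ := SetLike.not_le_iff_exists.1 a
    exact hi.kill _ (fun W hW => (pm W (nm hW)).1) (fun X hX W hW => Or.inl (idb id id X hX W hW))
      ⟨v, hv.1, a, fun W hW => b ⟨(pm W (nm hW)).2 v hv.1, Fs j W hW v hv.2⟩⟩
  -- `[h,m]` acts as zero
  have s2 : ∀ W ∈ br h m, To W M₁ M₀ := by
    obtain ⟨U, hU, iU⟩ := exists_irr (h := (m : Set (End ℝ E))) (fun X hX => (pm X hX).1)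
      (fun X hX => (pm X hX).2) hi.lt
    obtain ⟨v, hv, a⟩ := SetLike.not_le_iff_exists.1 iU.lt.2
    have hl : ∀ X ∈ h, ∀ W ∈ h, X * W - W * X ∈ br h h := fun X hX W hW => mem_br hX hW
    refine hi.kill _ (fun W hW => (pm W (bm hW)).1) (fun X hX W hW => Or.inl ?_)
      ⟨v, hU hv, a, fun V hV => ?_⟩
    · exact mem_br hX (bm hW)
    · obtain ⟨j, hj⟩ := hφ.nil ph pm hV (pm V (bm hV)) fun W hW =>
        hφ.comm (pm V (bm hV)) (pm W hW) (s1 _ (mem_br (bm hV) hW))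
      exact iU.kill1 (S := V) ⟨iU.pr (bm hV), fun X hX w hw => s1 _ (mem_br hX (bm hV)) w (hU hw)⟩
        (j := j) (fun w hw => hj w (hU hw)) v hv
  intro W hW
  obtain ⟨j, hj⟩ := hφ.nil ph ph (mb hW) (pm W hW) fun X hX =>
    (hφ.comm (ph X hX) (pm W hW) (s2 _ (mem_br hX hW))).symm
  exact hi.kill1 ⟨pm W hW, fun X hX => s2 _ (mem_br hX hW)⟩ hj

/-- What acts as zero on all irreducible subquotients has trace zero. -/
lemma tr_zero_of_irr {f : End ℝ E} (hf : ∀ M₀ M₁, Irr h M₀ M₁ → f ∈ PrA M₀ M₁ ∧ To f M₁ M₀) :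
    tr f = 0 := by
  have := ind (h := h) (P := fun A B => tq B f - tq A f = 0) (fun _ _ => sub_self _)
    (fun A B hi => by
      obtain ⟨φ, hφ⟩ := phi hi.lt.le
      rw [← hφ.trc f (hf A B hi).1, (hφ.zero f (hf A B hi).1).2 (hf A B hi).2, map_zero])
    (fun _ _ _ _ _ _ _ _ a b => by linarith) (inv_bot h) (inv_top h) bot_le
  rwa [tq_top, tq_bot, sub_zero] at this

/-- `D = R + D'` with `D' ∈ [h,h]` and `R` central on every irreducible subquotient. -/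
theorem exists_R {h : Submodule ℝ (End ℝ E)} (hl : ∀ X ∈ h, ∀ Y ∈ h, X * Y - Y * X ∈ h) {D}
    (hD : D ∈ h) : ∃ D' ∈ br h h, ∀ M₀ M₁, Irr (h : Set (End ℝ E)) M₀ M₁ →
      ∀ X ∈ h, To (X * (D - D') - (D - D') * X) M₁ M₀ := by
  have bh : br h h ≤ h := br_le hl
  let r : Submodule ℝ (End ℝ E) :=
    { carrier := {W | W ∈ h ∧ ∀ Z ∈ br h h, tr (W * Z) = 0}
      add_mem' := fun a b => ⟨h.add_mem a.1 b.1, fun Z hZ => by
        rw [add_mul, map_add, a.2 Z hZ, b.2 Z hZ, add_zero]⟩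
      zero_mem' := ⟨h.zero_mem, fun Z _ => by simp⟩
      smul_mem' := fun c _ a => ⟨h.smul_mem c a.1, fun Z hZ => by
        rw [smul_mul_assoc, map_smul, a.2 Z hZ, smul_zero]⟩ }
  have idr : ∀ X ∈ h, ∀ W ∈ r, X * W - W * X ∈ r ⊓ br h h := fun X hX W hW =>
    ⟨⟨hl X hX W hW.1, fun Z hZ => by
      have := hW.2 _ (mem_br (bh hZ) hX)
      rw [mul_sub, map_sub] at this
      rw [sub_mul, map_sub, mul_assoc, LinearMap.trace_mul_comm, mul_assoc, mul_assoc, this]⟩,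
      mem_br hX hW.1⟩
  have km (M₀ M₁) (hi : Irr (h : Set (End ℝ E)) M₀ M₁) : ∀ W ∈ r ⊓ br h h, To W M₁ M₀ :=
    hi.ideal (inf_le_right.trans bh) inf_le_right (fun X hX W hW => idr X hX W hW.1)
      fun X hX Y hY => hX.1.2 Y hY.2
  let B : br h h →ₗ[ℝ] br h h →ₗ[ℝ] ℝ := LinearMap.mk₂ ℝ
    (fun x y => tr ((y : End ℝ E) * (x : End ℝ E)))
    (fun _ _ _ => by simp [mul_add]) (fun _ _ _ => by simp) (fun _ _ _ => by simp [add_mul])
    (fun _ _ _ => by simp)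
  let l : Dual ℝ (br h h) := (LinearMap.trace ℝ E) ∘ₗ LinearMap.mulLeft ℝ D ∘ₗ (br h h).subtype
  have hlm : l ∈ (LinearMap.ker B).dualAnnihilator := by
    rw [Submodule.mem_dualAnnihilator]
    intro w hw
    have hw' : (w : End ℝ E) ∈ r ⊓ br h h := ⟨⟨bh w.2, fun Z hZ => by
      rw [LinearMap.trace_mul_comm]; exact LinearMap.congr_fun hw ⟨Z, hZ⟩⟩, w.2⟩
    exact tr_zero_of_irr (h := (h : Set (End ℝ E))) fun A C hi =>
      ⟨(PrA A C).mul_mem (hi.pr hD) (hi.pr (bh w.2)), (hi.i0 D hD).mul (km A C hi _ hw')⟩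
  rw [LinearMap.dualAnnihilator_ker_eq_range_flip] at hlm
  obtain ⟨D', hD'⟩ := hlm
  refine ⟨D', D'.2, fun A C hi X hX => km A C hi _ (idr X hX _ ⟨h.sub_mem hD (bh D'.2), ?_⟩)⟩
  intro Z hZ
  have : tr ((D' : End ℝ E) * Z) = tr (D * Z) := LinearMap.congr_fun hD' ⟨Z, hZ⟩
  rw [sub_mul, map_sub, this, sub_self]

end Crest.Agent.N221.Pur
end

-- ▼ part N221/Hu/Pur2
section

/-! Row 221, A1: purity of the irreducible subquotients and their central weights. -/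
open Module Polynomial
set_option linter.unusedSectionVars false
namespace Crest.Agent.N221.Pur
variable {E : Type*} [AddCommGroup E] [Module ℝ E] [FiniteDimensional ℝ E]

local notation "tr" => LinearMap.trace ℝ _

variable {ι : Type} [Fintype ι] {b : Basis ι ℝ E} {r : ι → ℝ} {D p : End ℝ E}
  {M₀ M₁ : Submodule ℝ E} {φ : End ℝ E →ₗ[ℝ] End ℝ E}

lemma fn (hD : ∀ i, D (b i) = r i • b i) (f : ℝ → ℝ) :
    ∃ q : ℝ[X], ∀ i, aeval D q (b i) = f (r i) • b i := by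
  obtain ⟨q, hq⟩ : ∃ q : ℝ[X], ∀ i, q.eval (r i) = f (r i) :=
    (Polynomial.exists_eval_eq_iff r fun i => f (r i)).mpr fun i j e => by rw [e]
  exact ⟨q, fun i => by rw [End.aeval_apply_of_mem_apply_eq_smul (hD i), hq]⟩

lemma aeval_mem {A : Subalgebra ℝ (End ℝ E)} (h : D ∈ A) (q : ℝ[X]) : aeval D q ∈ A :=
  Algebra.adjoin_le (Set.singleton_subset_iff.2 h) (aeval_mem_adjoin_singleton ℝ D)

open Classical in
lemma spec (hD : ∀ i, D (b i) = r i • b i) : ∃ P : ℝ → ℝ[X],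
    (∀ l, IsIdempotentElem (aeval D (P l))) ∧ ∀ (G : End ℝ E) (g : ℝ → ℝ),
      (∀ i, G (b i) = g (r i) • b i) → G = ∑ l ∈ Finset.univ.image r, g l • aeval D (P l) := by
  choose P hP using fun l : ℝ => fn hD fun x => if x = l then 1 else 0
  refine ⟨P, fun l => b.ext fun i => ?_, fun G g hG => b.ext fun i => ?_⟩
  · rw [End.mul_apply, hP, map_smul, hP]; split_ifs <;> simp
  · rw [LinearMap.sum_apply, hG, Finset.sum_eq_single (r i)]
    · simp [hP]
    · intro l _ hl; simp [hP, hl.symm]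
    · simp

lemma Phi.idem (hφ : Phi M₀ M₁ φ) {e} (h : e ∈ PrA M₀ M₁) (he : IsIdempotentElem e) :
    IsIdempotentElem (φ e) := by rw [IsIdempotentElem, ← hφ.mul e h e h, he.eq]

lemma Phi.pos (hφ : Phi M₀ M₁ φ) (hD : ∀ i, D (b i) = r i • b i) (h : D ∈ PrA M₀ M₁)
    {G : End ℝ E} (g : ℝ → ℝ) (hG : ∀ i, G (b i) = g (r i) • b i) (hg : ∀ i, 0 ≤ g (r i)) :
    0 ≤ tr (φ G) := by
  obtain ⟨P, h1, h2⟩ := spec hD
  rw [h2 G g hG, map_sum, map_sum]
  refine Finset.sum_nonneg fun l hl => ?_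
  obtain ⟨i, -, rfl⟩ := Finset.mem_image.1 hl
  rw [map_smul, map_smul]
  exact mul_nonneg (hg i) (tr_idem_nonneg (hφ.idem (aeval_mem h _) (h1 _)))

lemma Phi.one_pos (hφ : Phi M₀ M₁ φ) (hlt : M₀ < M₁) : 0 < tr (φ 1) := by
  have h := hφ.idem (PrA M₀ M₁).one_mem IsIdempotentElem.one
  refine (tr_idem_nonneg h).lt_of_ne fun e => hlt.2 fun v hv => ?_
  exact (hφ.zero 1 (PrA M₀ M₁).one_mem).1
    (LinearMap.IsIdempotentElem.eq_zero_of_trace_eq_zero h e.symm) v hv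

lemma Irr.fac {h : Set (End ℝ E)} (hi : Irr h M₀ M₁) {R} (hR : R ∈ Cen h M₀ M₁ fun _ => hi.pr) :
    ∃ a c : ℝ, To (aeval R ((X - C a) ^ 2 + C (c ^ 2))) M₁ M₀ := by
  suffices ∀ q : ℝ[X], q ≠ 0 → To (aeval R q) M₁ M₀ → _ from
    this _ R.charpoly_monic.ne_zero fun v _ => by simp [LinearMap.aeval_self_charpoly]
  intro q
  induction hn : q.natDegree using Nat.strong_induction_on generalizing q with
  | _ n ih =>
  intro hq hT
  have step (f q' : ℝ[X]) (e : q = f * q') (hf : 0 < f.natDegree) (a c : ℝ)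
      (hd : f ∣ (X - C a) ^ 2 + C (c ^ 2)) :
      ∃ a c : ℝ, To (aeval R ((X - C a) ^ 2 + C (c ^ 2))) M₁ M₀ := by
    have f0 : f ≠ 0 := left_ne_zero_of_mul (e ▸ hq)
    have q0 : q' ≠ 0 := right_ne_zero_of_mul (e ▸ hq)
    have hc := aeval_mem hR f
    by_cases ex : ∃ v ∈ M₁, v ∉ M₀ ∧ aeval R f v ∈ M₀
    · obtain ⟨v, a1, a2, a3⟩ := ex
      have := hi.kill {aeval R f} (by rintro _ rfl; exact hc.1.1)
        (by rintro X hX _ rfl; exact Or.inr (hc.2 X hX)) ⟨v, a1, a2, by rintro _ rfl; exact a3⟩ _ rfl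
      obtain ⟨g, hg⟩ := hd
      refine ⟨a, c, ?_⟩
      rw [hg, map_mul]
      exact this.mul (aeval_mem hR g).1.2
    · push Not at ex
      refine ih q'.natDegree ?_ q' rfl q0 fun v hv => ?_
      · rw [← hn, e, natDegree_mul f0 q0]; omega
      · by_contra hv'
        refine ex _ ((aeval_mem hR q').1.2 v hv) hv' ?_
        have := hT v hv
        rwa [e, map_mul] at this
  by_cases h0 : q.degree = 0
  · exfalso
    rw [eq_C_of_degree_eq_zero h0] at hT hq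
    refine hi.lt.2 fun v hv => ?_
    have := hT v hv
    rw [aeval_C, Algebra.algebraMap_eq_smul_one] at this
    exact (M₀.smul_mem_iff (fun e => hq (by rw [e, map_zero]))).1 this
  obtain ⟨z, hz⟩ : ∃ z : ℂ, aeval z q = 0 := IsAlgClosed.exists_aeval_eq_zero _ q h0
  by_cases him : z.im = 0
  · have : q.IsRoot z.re := by
      have e : z = algebraMap ℝ ℂ z.re := Complex.ext (by simp) (by simpa)
      rw [e, aeval_algebraMap_apply] at hz
      simpa using hz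
    obtain ⟨q', e⟩ := dvd_iff_isRoot.2 this
    exact step _ q' e (by simp) z.re 0 ⟨X - C z.re, by simp [sq]⟩
  · obtain ⟨q', e⟩ := q.quadratic_dvd_of_aeval_eq_zero_im_ne_zero hz him
    have e2 : (X ^ 2 - C (2 * z.re) * X + C (‖z‖ ^ 2) : ℝ[X]) =
        (X - C z.re) ^ 2 + C (z.im ^ 2) := by
      rw [Complex.sq_norm, Complex.normSq_apply]
      simp only [map_add, map_mul, map_pow, map_ofNat]; ring
    refine step _ q' e ?_ z.re z.im (e2 ▸ dvd_rfl)
    have : (X ^ 2 - C (2 * z.re) * X + C (‖z‖ ^ 2) : ℝ[X]).natDegree = 2 := by compute_degree!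
    omega

lemma Irr.scal {h : Submodule ℝ (End ℝ E)} (hi : Irr (h : Set (End ℝ E)) M₀ M₁)
    (hD : ∀ i, D (b i) = r i • b i) (hm : D ∈ h) {D'} (hD' : D' ∈ br h h)
    (hR : D - D' ∈ Cen (h : Set (End ℝ E)) M₀ M₁ fun _ => hi.pr) :
    ∃ c : ℝ, To (D - D' - c • 1) M₁ M₀ := by
  obtain ⟨a, c, hc⟩ := hi.fac hR
  set S := D - D' - a • 1 with hS
  have Sc : S ∈ Cen (h : Set (End ℝ E)) M₀ M₁ fun _ => hi.pr :=
    Subalgebra.sub_mem _ hR (Subalgebra.smul_mem _ (Subalgebra.one_mem _) _)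
  have e : aeval (D - D') ((X - C a) ^ 2 + C (c ^ 2)) = S ^ 2 + c ^ 2 • 1 := by
    simp [hS, Algebra.algebraMap_eq_smul_one, _root_.smul_pow]
  rw [e] at hc
  by_cases c0 : c = 0
  · exact ⟨a, hi.kill1 Sc (j := 2) (by simpa [c0] using hc)⟩
  exfalso
  obtain ⟨φ, hφ⟩ := phi hi.lt.le
  have o := (PrA M₀ M₁).one_mem
  have s2 : φ S * φ S = -(c ^ 2) • φ 1 := by
    have := (hφ.zero _ ((PrA M₀ M₁).add_mem ((PrA M₀ M₁).pow_mem Sc.1 2)
      ((PrA M₀ M₁).smul_mem o _))).2 hc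
    rw [map_add, map_smul, sq, hφ.mul _ Sc.1 _ Sc.1] at this
    rw [neg_smul]; exact eq_neg_of_add_eq_zero_left this
  have t0 (q : ℝ[X]) (hq : IsIdempotentElem (aeval D q)) : tr (φ S * φ (aeval D q)) = 0 := by
    have m1 : aeval D q ∈ Cen {S} M₀ M₁ (by rintro _ rfl; exact Sc.1) :=
      aeval_mem (show D ∈ Cen {S} M₀ M₁ _ from ⟨hi.pr hm, by
        rintro _ rfl v hv
        have := M₀.neg_mem (Sc.2 D hm v hv)
        simpa using this⟩) q
    have cm := hφ.comm Sc.1 m1.1 (m1.2 S rfl)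
    have id := hφ.idem m1.1 hq
    have u : φ 1 * φ S = φ S := by rw [← hφ.mul _ o _ Sc.1, one_mul]
    have : tr (c⁻¹ • (φ S * φ (aeval D q))) = 0 := tr_cube _ (by
      rw [_root_.smul_pow, cm.mul_pow, id.pow_succ_eq 2, pow_succ (φ S), sq (φ S), s2, smul_mul_assoc, u,
        smul_mul_assoc, smul_smul, ← neg_smul]
      congr 1; field_simp)
    rw [map_smul, smul_eq_mul] at this
    exact (mul_eq_zero.1 this).resolve_left (inv_ne_zero c0)
  obtain ⟨P, h1, h2⟩ := spec hD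
  have t1 : tr (φ S * φ D) = 0 := by
    conv_lhs => rw [h2 D id hD, map_sum, Finset.mul_sum, map_sum]
    exact Finset.sum_eq_zero fun l _ => by rw [map_smul, mul_smul_comm, map_smul, t0 _ (h1 l)]; simp
  have t2 : tr (φ S * φ D') = 0 := hφ.tr_br (fun X hX => hi.pr hX) (fun X hX => hi.pr hX)
    (fun W hW => (hφ.comm (hi.pr hW) Sc.1 (Sc.2 W hW)).symm) _ hD'
  have t3 : tr (φ S * φ 1) = 0 := by simpa using t0 1 (by simpa using IsIdempotentElem.one)
  have t4 : tr (φ S * φ S) = 0 := by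
    have : φ S = φ D - φ D' - a • φ 1 := by rw [hS, map_sub, map_sub, map_smul]
    nth_rewrite 2 [this]
    rw [mul_sub, mul_sub, mul_smul_comm, map_sub, map_sub, map_smul, t1, t2, t3]; simp
  rw [s2, map_smul, smul_eq_mul] at t4
  have := hφ.one_pos hi.lt
  have : 0 < c ^ 2 := by positivity
  nlinarith

/-- **Purity.** -/
theorem pure {h : Submodule ℝ (End ℝ E)} (hl : ∀ X ∈ h, ∀ Y ∈ h, X * Y - Y * X ∈ h) (hm : D ∈ h)
    (hd : ∀ i, D (b i) = r i • b i ∧ ((0 < r i ∧ p (b i) = b i) ∨ (r i < 0 ∧ p (b i) = 0)))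
    (h0 : ∀ X ∈ h, ∀ Y ∈ h, tr (p * (X * Y - Y * X)) = 0) :
    ∃ R ∈ h, ∀ M₀ M₁, Irr (h : Set (End ℝ E)) M₀ M₁ → ∃ c : ℝ, To (R - c • 1) M₁ M₀ ∧
      ((0 < c ∧ To (1 - p) M₁ M₀) ∨ (c < 0 ∧ To p M₁ M₀)) := by
  have hD i := (hd i).1
  have bh : br h h ≤ h := br_le hl
  obtain ⟨D', hD', hc⟩ := exists_R hl hm
  obtain ⟨κ, κ0, hκ⟩ : ∃ κ : ℝ, 0 < κ ∧ ∀ i, κ ≤ |r i| := by
    rcases isEmpty_or_nonempty ι with _ | _
    · exact ⟨1, one_pos, fun i => isEmptyElim i⟩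
    obtain ⟨i, hi⟩ := Finite.exists_min fun i => |r i|
    exact ⟨_, abs_pos.2 (by rcases (hd i).2 with h | h; exacts [h.1.ne', h.1.ne]), hi⟩
  have hp (i) : p (b i) = (if 0 < r i then (1 : ℝ) else 0) • b i := by
    rcases (hd i).2 with h | h
    · simp [h.1, h.2]
    · simp [h.1.le, h.2]
  obtain ⟨q, hq⟩ := fn hD fun x => if 0 < x then 1 else 0
  have pq : p = aeval D q := b.ext fun i => by rw [hp, hq]
  have pi : IsIdempotentElem p := b.ext fun i => by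
    rcases (hd i).2 with h | h <;> simp [h.2]
  have main (A B) (hi : Irr (h : Set (End ℝ E)) A B) : 0 ≤ tq B (p * D') - tq A (p * D') ∧
      (tq B (p * D') - tq A (p * D') = 0 → ∃ c : ℝ, To (D - D' - c • 1) B A ∧
        ((0 < c ∧ To (1 - p) B A) ∨ (c < 0 ∧ To p B A))) := by
    obtain ⟨φ, hφ⟩ := phi hi.lt.le
    have o := (PrA A B).one_mem
    have mD := hi.pr hm
    have mD' := hi.pr (bh hD')
    have mp : p ∈ PrA A B := pq ▸ aeval_mem mD q
    have mq := (PrA A B).sub_mem o mp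
    obtain ⟨c, hs⟩ := hi.scal hD hm hD' ⟨(PrA A B).sub_mem mD mD', hc A B hi⟩
    have z := (hφ.zero _ ((PrA A B).sub_mem ((PrA A B).sub_mem mD mD')
      ((PrA A B).smul_mem o c))).2 hs
    have e1 : φ D' = φ D - c • φ 1 := by
      rw [map_sub, map_sub, map_smul] at z
      rw [← sub_eq_zero, ← neg_eq_zero, ← z]; abel
    have t' : tr (φ D') = 0 := by
      simpa using hφ.tr_br (a := 1) (fun X hX => hi.pr hX) (fun X hX => hi.pr hX)
        (fun W _ => Commute.one_left _) _ hD'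
    have n0 := hφ.one_pos hi.lt
    have u0 := tr_idem_nonneg (hφ.idem mp pi)
    have s0 := tr_idem_nonneg (hφ.idem mq pi.one_sub)
    have b0 := hφ.pos hD mD (G := p * D - κ • p) (fun x => if 0 < x then x - κ else 0)
      (fun i => by
        rcases (hd i).2 with h | h
        · simp [hD, h.1, h.2, sub_smul]
        · simp [hD, h.1.le, h.2])
      fun i => by
        split_ifs with h
        · have := hκ i; rw [abs_of_pos h] at this; linarith
        · rfl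
    have a0 := hφ.pos hD mD (G := -((1 - p) * D) - κ • (1 - p))
      (fun x => if 0 < x then 0 else -x - κ)
      (fun i => by
        rcases (hd i).2 with h | h
        · simp [hD, h.1, h.2]
        · simp [hD, h.1.le, h.2, sub_smul])
      fun i => by
        split_ifs with h
        · rfl
        · have := hκ i; rw [abs_of_nonpos (not_lt.1 h)] at this; linarith
    have d : tq B (p * D') - tq A (p * D') = tr (φ (p * D)) - c * tr (φ p) := by
      rw [← hφ.trc _ ((PrA A B).mul_mem mp mD'), hφ.mul _ mp _ mD', e1, mul_sub, mul_smul_comm,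
        ← hφ.mul _ mp _ mD, ← hφ.mul _ mp _ o, mul_one, map_sub, map_smul, smul_eq_mul]
    rw [e1, map_sub, map_smul, smul_eq_mul] at t'
    simp only [sub_mul, one_mul, map_sub, map_neg, map_smul, smul_eq_mul] at s0 b0 a0
    rw [d]
    generalize hu : tr (φ p) = u at *
    generalize hn : tr (φ 1) = n at *
    generalize hB : tr (φ (p * D)) = β at *
    generalize hT : tr (φ D) = T at *
    have key : n * (β - c * u) = (β - κ * u) * (n - u) + (-(T - β) - κ * (n - u)) * u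
        + 2 * κ * (u * (n - u)) := by linear_combination u * t'
    have k1 := mul_nonneg b0 s0
    have k2 := mul_nonneg a0 u0
    have k3 := mul_nonneg u0 s0
    refine ⟨by nlinarith, fun e => ⟨c, hs, ?_⟩⟩
    have k4 : u * (n - u) = 0 := by rw [e] at key; nlinarith
    rcases mul_eq_zero.1 k4 with e' | e'
    · refine Or.inr ⟨?_, (hφ.zero p mp).1 (LinearMap.IsIdempotentElem.eq_zero_of_trace_eq_zero
        (hφ.idem mp pi) (hu.trans e'))⟩
      subst e'; nlinarith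
    · refine Or.inl ⟨?_, (hφ.zero _ mq).1 (LinearMap.IsIdempotentElem.eq_zero_of_trace_eq_zero
        (hφ.idem mq pi.one_sub) (by rw [map_sub, map_sub, hu, hn, e']))⟩
      obtain rfl : n = u := by linarith
      nlinarith
  have all {A B} := ind (h := (h : Set (End ℝ E)))
    (P := fun A B => 0 ≤ tq B (p * D') - tq A (p * D')) (fun _ _ => by simp)
    (fun A B hi => (main A B hi).1) (fun _ _ _ _ _ _ _ _ a b => by linarith) (M₀ := A) (M₁ := B)
  have tot : tr (p * D') = 0 := by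
    clear main all hc
    induction hD' using Submodule.span_induction with
    | mem x hx => obtain ⟨X, hX, Y, hY, rfl⟩ := hx; exact h0 X hX Y hY
    | zero => simp
    | add x y _ _ hx hy => rw [mul_add, map_add, hx, hy, add_zero]
    | smul c x _ hx => rw [mul_smul_comm, map_smul, hx, smul_zero]
  refine ⟨D - D', h.sub_mem hm (bh hD'), fun A B hi => (main A B hi).2 ?_⟩
  have a1 := all (inv_bot _) hi.i0 bot_le
  have a2 := all hi.i1 (inv_top _) le_top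
  have a3 := (main A B hi).1
  rw [tq_bot] at a1
  rw [tq_top, tot] at a2
  linarith

end Crest.Agent.N221.Pur
end

-- ▼ part N221/Hu/Pur
section

/-! Row 221, A1: purity `PurS` and lemma Y `LYS`. -/
open Module Polynomial
set_option linter.unusedSectionVars false
namespace Crest.Agent.N221.Pur
section
variable {E : Type*} [AddCommGroup E] [Module ℝ E] [FiniteDimensional ℝ E]
  {h : Set (End ℝ E)} {R p : End ℝ E}

/-- `R` acts on each irreducible subquotient by a scalar whose sign gives the type. -/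
def Pu (h : Set (End ℝ E)) (R p : End ℝ E) : Prop := ∀ M₀ M₁, Irr h M₀ M₁ → ∃ c : ℝ,
  To (R - c • 1) M₁ M₀ ∧ ((0 < c ∧ To (1 - p) M₁ M₀) ∨ (c < 0 ∧ To p M₁ M₀))

lemma Pu.neg (H : Pu h R p) : Pu h (-R) (1 - p) := fun A B hi => by
  obtain ⟨c, a, b⟩ := H A B hi
  refine ⟨-c, fun v hv => ?_, b.symm.imp (fun b => ⟨by linarith [b.1], by simpa using b.2⟩)
    fun b => ⟨by linarith [b.1], b.2⟩⟩
  convert A.neg_mem (a v hv) using 1
  simp; abel

lemma Pu.typ (H : Pu h R p) (hp : ∀ M, Inv h M → To p M M) (pi : IsIdempotentElem p) {c : ℝ}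
    (c0 : 0 ≤ c) {A B} (hA : Inv h A) (hB : Inv h B) (le : A ≤ B) :
    To (R - c • 1) B A → To (1 - p) B A := by
  refine ind (h := h) (P := fun A B => To (R - c • 1) B A → To (1 - p) B A)
    (fun M hM _ v hv => M.sub_mem hv (hp M hM v hv)) (fun A B hi hc => ?_)
    (fun A B C _ _ _ a b x y hc v hv => ?_) hA hB le
  · obtain ⟨c', a, b⟩ := H A B hi
    refine b.elim (fun b => b.2) fun b => absurd (fun v hv => ?_) hi.lt.2
    have := A.sub_mem (a v hv) (hc v hv)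
    have e : (R - c' • 1) v - (R - c • 1) v = (c - c') • v := by simp [sub_smul]
    rw [e] at this
    exact (A.smul_mem_iff (by linarith [b.1])).1 this
  · have := x (fun w hw => hc w (b hw)) _ (y (fun w hw => a (hc w hw)) v hv)
    rwa [← End.mul_apply, pi.one_sub.eq] at this

lemma eig {S : End ℝ E} {A B : Submodule ℝ E} (lt : A < B) (hS : To S B A) :
    ∃ v ∈ B, v ≠ 0 ∧ S v = 0 := by
  by_contra hn
  push Not at hn
  have inj : Function.Injective (S.restrict (p := B) (q := A) hS) :=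
    (injective_iff_map_eq_zero _).2 fun v hv => by
      by_contra h0
      exact hn v v.2 (fun e => h0 (Subtype.ext e)) (congrArg Subtype.val hv)
  exact absurd (LinearMap.finrank_le_finrank_of_injective inj)
    (not_le.2 (Submodule.finrank_lt_finrank_of_lt lt))

lemma Pu.half (H : Pu h R p) (hR : R ∈ h) (hp : ∀ M, Inv h M → To p M M) (pi : IsIdempotentElem p)
    {K N Y : Submodule ℝ E} (hK : Inv h K) (hN : Inv h N) (hY : Inv h Y) {a : ℝ}
    (ha : ∀ u ∈ K, R u = a • u) (hm : ∀ c, ∀ w ∈ Y, w ≠ 0 → R w = c • w → a ≤ |c|)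
    (pY : ∀ w ∈ Y, p w = 0) (gn : ∀ M, Inv h M → To (1 - p) N M → N ≤ M)
    (t : E → E → E → ℝ) (l1 : ∀ v w, IsLinearMap ℝ fun u => t u v w)
    (l2 : ∀ u w, IsLinearMap ℝ fun v => t u v w) (l3 : ∀ u v, IsLinearMap ℝ fun w => t u v w)
    (ti : ∀ X ∈ h, ∀ u ∈ K, ∀ v ∈ N, ∀ w ∈ Y, t (X u) v w + t u (X v) w + t u v (X w) = 0) :
    ∀ u ∈ K, ∀ v ∈ N, ∀ w ∈ Y, t u v w = 0 := by
  refine ind (h := h) (P := fun A B => B ≤ Y → (∀ u ∈ K, ∀ v ∈ N, ∀ w ∈ A, t u v w = 0) →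
    ∀ u ∈ K, ∀ v ∈ N, ∀ w ∈ B, t u v w = 0) (fun _ _ _ x => x) (fun A B hi le h0 => ?_)
    (fun A B C _ _ _ _ b x y le h0 => y le (x (b.trans le) h0)) (inv_bot h) hY bot_le le_rfl
    fun u _ v _ w hw => by rw [(Submodule.mem_bot ℝ).1 hw]; exact (l3 u v).map_zero
  obtain ⟨c, hc, ty⟩ := H A B hi
  have c0 : c < 0 := ty.elim (fun b => absurd (fun w hw => by
    simpa [pY w (le hw)] using b.2 w hw) hi.lt.2) fun b => b.1
  obtain ⟨w₀, w1, w2, w3⟩ := eig hi.lt hc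
  have ac := hm c w₀ (le w1) w2 (by simpa [sub_eq_zero] using w3)
  rw [abs_of_neg c0] at ac
  let M : Submodule ℝ E :=
    { carrier := {v | v ∈ N ∧ ∀ u ∈ K, ∀ w ∈ B, t u v w = 0}
      add_mem' := fun x y => ⟨N.add_mem x.1 y.1, fun u hu w hw => by
        rw [(l2 u w).map_add, x.2 u hu w hw, y.2 u hu w hw, add_zero]⟩
      zero_mem' := ⟨N.zero_mem, fun u _ w _ => (l2 u w).map_zero⟩
      smul_mem' := fun s _ x => ⟨N.smul_mem s x.1, fun u hu w hw => by
        rw [(l2 u w).map_smul, x.2 u hu w hw, smul_zero]⟩ }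
  have hM : Inv h M := fun X hX v hv => ⟨hN X hX v hv.1, fun u hu w hw => by
    have := ti X hX u hu v hv.1 w (le hw)
    rwa [hv.2 _ (hK X hX u hu) w hw, hv.2 u hu _ (hi.i1 X hX w hw), zero_add, add_zero] at this⟩
  have := gn M hM (H.typ hp pi (c := -c - a) (by linarith) hM hN (fun v hv => hv.1) fun v hv =>
    ⟨N.sub_mem (hN R hR v hv) (N.smul_mem _ hv), fun u hu w hw => ?_⟩)
  · exact fun u hu v hv w hw => (this hv).2 u hu w hw
  have e1 := ti R hR u hu v hv w (le hw)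
  have e2 := h0 u hu v hv _ (hc w hw)
  have e3 : (R - c • 1) w = R w - c • w := rfl
  have e4 : (R - (-c - a) • 1) v = R v - (-c - a) • v := rfl
  rw [e3, (l3 u v).map_sub, (l3 u v).map_smul, smul_eq_mul] at e2
  rw [ha u hu, (l1 v w).map_smul, smul_eq_mul] at e1
  rw [e4, (l2 u w).map_sub, (l2 u w).map_smul, smul_eq_mul]
  linarith

end

open Hu
variable {V : Type} [NormedAddCommGroup V] [NormedSpace ℝ V] [FiniteDimensional ℝ V]
  {h : Submodule ℝ (V →L[ℝ] V)} {D p : V →L[ℝ] V}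

/-- `h` read in `End V`. -/
def hE (h : Submodule ℝ (V →L[ℝ] V)) : Submodule ℝ (End ℝ V) :=
  h.map (ContinuousLinearMap.coeLM ℝ)

lemma inv_iff {M : Submodule ℝ V} : Inv (hE h : Set (End ℝ V)) M ↔ Hu.Inv h M :=
  ⟨fun H a ha => H a ⟨a, ha, rfl⟩, by rintro H _ ⟨a, ha, rfl⟩; exact H a ha⟩

lemma env_inv {M : Submodule ℝ V} (hM : Hu.Inv h M) : Hu.Inv (env h) M := fun a ha => by
  induction ha using Algebra.adjoin_induction with
  | mem x hx => exact hM x hx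
  | algebraMap c => exact fun v hv => M.smul_mem c hv
  | add x y _ _ hx hy => exact fun v hv => M.add_mem (hx v hv) (hy v hv)
  | mul x y _ _ hx hy => exact fun v hv => hx _ (hy v hv)

lemma mem_rad {a : V →L[ℝ] V} (ha : a ∈ env h)
    (H : ∀ A B, Irr (hE h : Set (End ℝ V)) A B → ∀ v ∈ B, a v ∈ A) : a ∈ rad (env h) :=
  ⟨ha, fun b hb => tr_zero_of_irr (h := (hE h : Set (End ℝ V))) fun A B hi =>
    ⟨⟨env_inv (inv_iff.1 hi.i0) _ (mul_mem ha hb), env_inv (inv_iff.1 hi.i1) _ (mul_mem ha hb)⟩,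
      fun v hv => H A B hi _ (env_inv (inv_iff.1 hi.i1) b hb v hv)⟩⟩

lemma p_mem (H : Hyp h D p) : p ∈ env h := by
  obtain ⟨ι, _, b, r, hd⟩ := H.diag
  obtain ⟨q, hq⟩ := fn (D := (D : End ℝ V)) (fun i => (hd i).1) fun x => if 0 < x then 1 else 0
  have : p = aeval D q := by
    apply ContinuousLinearMap.coe_injective
    have := Polynomial.aeval_algHom_apply (End.toContinuousLinearMap V).symm D q
    refine Eq.trans (b.ext fun i => ?_) this
    refine Eq.trans ?_ (hq i).symm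
    rcases (hd i).2 with h | h
    · simp [h.1, h.2]
    · simp [h.1.le, h.2]
  rw [this]
  exact Algebra.adjoin_le (Set.singleton_subset_iff.2 (Algebra.subset_adjoin H.mem))
    (aeval_mem_adjoin_singleton ℝ D)

lemma p_idem (H : Hyp h D p) : IsIdempotentElem (p : End ℝ V) := by
  obtain ⟨ι, _, b, r, hd⟩ := H.diag
  exact b.ext fun i => by rcases (hd i).2 with h | h <;> simp [h.2]

lemma exists_pu (H : Hyp h D p) : ∃ R ∈ h, Pu (hE h : Set (End ℝ V)) (R : End ℝ V) (p : End ℝ V) := by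
  obtain ⟨ι, _, b, r, hd⟩ := H.diag
  obtain ⟨_, ⟨R, hR, rfl⟩, hp⟩ := pure (h := hE h) (D := (D : End ℝ V)) (p := (p : End ℝ V))
    (by rintro _ ⟨X, hX, rfl⟩ _ ⟨Y, hY, rfl⟩; exact ⟨_, H.lie X hX Y hY, rfl⟩) ⟨D, H.mem, rfl⟩ hd
    (by rintro _ ⟨X, hX, rfl⟩ _ ⟨Y, hY, rfl⟩; exact H.tr0 X hX Y hY)
  exact ⟨R, hR, hp⟩

end Crest.Agent.N221.Pur

namespace Crest.Agent.N221.Hu
open Pur

theorem purS : PurS := by
  intro V _ _ _ h D p H
  obtain ⟨R, -, hp⟩ := exists_pu H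
  have pm := p_mem H
  refine ⟨pm, fun a ha => mem_rad (sub_mem (mul_mem pm ha) (mul_mem ha pm)) fun A B hi v hv => ?_⟩
  have a0 := env_inv (inv_iff.1 hi.i0) a ha
  have a1 := env_inv (inv_iff.1 hi.i1) a ha
  obtain ⟨c, -, t | t⟩ := hp A B hi
  · convert A.sub_mem (a0 _ (t.2 v hv)) (t.2 _ (a1 v hv)) using 1
    simp
  · exact A.sub_mem (t.2 _ (a1 v hv)) (a0 _ (t.2 v hv))

theorem lyS : LYS := by
  intro V _ _ _ h D p Yu Ys N₁ N₂ t₁ t₂ H iu is i1 i2 u0 s0 pu ps hJ ht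
  obtain ⟨R, hR, hp⟩ := exists_pu H
  have pm := p_mem H
  have pi := p_idem H
  have pM (M) (hM : Pur.Inv (hE h : Set (End ℝ V)) M) : To (p : End ℝ V) M M :=
    env_inv (inv_iff.1 hM) p pm
  have cm (X) (hX : X ∈ h) : X * R - R * X ∈ rad (env h) :=
    mem_rad (Algebra.subset_adjoin (H.lie X hX R hR)) fun A B hi v hv => by
      obtain ⟨c, hc, -⟩ := hp A B hi
      convert A.sub_mem (inv_iff.1 hi.i0 X hX _ (hc v hv)) (hc _ (inv_iff.1 hi.i1 X hX v hv))
        using 1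
      simp
  have eg (Y : Submodule ℝ V) (iY : Inv h Y) (kY : ∀ j ∈ rad (env h), ∀ u ∈ Y, j u = 0) (c : ℝ) :
      Pur.Inv (hE h : Set (End ℝ V)) (Y ⊓ End.eigenspace (R : End ℝ V) c) :=
    inv_iff.2 fun X hX v hv => ⟨iY X hX v hv.1, by
      have e1 : X (R v) - R (X v) = 0 := kY _ (cm X hX) v hv.1
      have e2 : R v = c • v := End.mem_eigenspace_iff.1 hv.2
      rw [e2, map_smul, sub_eq_zero] at e1
      exact End.mem_eigenspace_iff.2 e1.symm⟩
  have gi (q : V →L[ℝ] V) (N : Submodule ℝ V) (iN : Inv h N) (hq : q ∈ env h) (qi : q * q = q) :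
      Pur.Inv (hE h : Set (End ℝ V)) (gen (env h) q N) ∧ gen (env h) q N ≤ N ∧
      ∀ M, Pur.Inv (hE h : Set (End ℝ V)) M → To (q : End ℝ V) (gen (env h) q N) M →
        gen (env h) q N ≤ M := by
    refine ⟨inv_iff.2 fun X hX v hv => ?_, Submodule.span_le.2 ?_,
      fun M hM hT => Submodule.span_le.2 ?_⟩
    · refine (Submodule.span_le (p := Submodule.comap (X : V →ₗ[ℝ] V) (gen (env h) q N))).2 ?_ hv
      rintro _ ⟨a, ha, w, hw, rfl⟩
      exact Submodule.subset_span ⟨X * a, mul_mem (Algebra.subset_adjoin hX) ha, w, hw, rfl⟩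
    · rintro _ ⟨a, ha, _, ⟨w, hw, rfl⟩, rfl⟩
      exact env_inv iN a ha _ (env_inv iN q hq w hw)
    · rintro _ ⟨a, ha, _, ⟨w, hw, rfl⟩, rfl⟩
      refine env_inv (inv_iff.1 hM) a ha _ ?_
      have := hT (q w) (Submodule.subset_span ⟨1, one_mem _, _, ⟨w, hw, rfl⟩, rfl⟩)
      rwa [show (q : End ℝ V) (q w) = q w from congrArg (fun f : V →L[ℝ] V => f w) qi] at this
  have pp : p * p = p := ContinuousLinearMap.coe_injective pi
  have qq : (1 - p) * (1 - p) = 1 - p := IsIdempotentElem.one_sub pp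
  let Ω := {c : ℝ | ∃ w, (w ∈ Yu ∨ w ∈ Ys) ∧ w ≠ 0 ∧ R w = c • w}
  have fin : Ω.Finite := (End.finite_hasEigenvalue (R : End ℝ V)).subset
    fun c ⟨w, _, a, b⟩ => End.hasEigenvalue_of_hasEigenvector ⟨End.mem_eigenspace_iff.2 b, a⟩
  have ne : Ω.Nonempty := by
    obtain ⟨M, hM, hi⟩ := exists_irr (inv_bot _) (inv_iff.2 iu) (bot_lt_iff_ne_bot.2 u0)
    obtain ⟨c, hc, -⟩ := hp _ _ hi
    obtain ⟨w, w1, w2, w3⟩ := eig hi.lt hc
    exact ⟨c, w, Or.inl (hM w1), w2, by simpa [sub_eq_zero] using w3⟩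
  obtain ⟨a, ⟨w, hw, w0, wa⟩, mn⟩ := Set.exists_min_image Ω (fun c => |c|) fin ne
  have lin (t : V →L[ℝ] V →L[ℝ] V →L[ℝ] ℝ) : (∀ v w, IsLinearMap ℝ fun u => t u v w) ∧
      (∀ u w, IsLinearMap ℝ fun v => t u v w) ∧ ∀ u v, IsLinearMap ℝ fun w => t u v w :=
    ⟨fun _ _ => ⟨by simp, by simp⟩, fun _ _ => ⟨by simp, by simp⟩, fun _ _ => ⟨by simp, by simp⟩⟩
  rcases hw with hw | hw
  · have key (N) (iN : Inv h N) (t : V →L[ℝ] V →L[ℝ] V →L[ℝ] ℝ)
        (ti : ∀ X ∈ h, TInv t Yu N Ys X) : ∀ v ∈ gen (env h) (1 - p) N, ∀ z ∈ Ys, t w v z = 0 := by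
      obtain ⟨g1, g2, g3⟩ := gi (1 - p) N iN (sub_mem (one_mem _) pm) qq
      exact hp.half ⟨R, hR, rfl⟩ pM pi (eg Yu iu (fun j hj => (hJ j hj).1) a) g1 (inv_iff.2 is)
        (a := a) (fun u hu => End.mem_eigenspace_iff.1 hu.2)
        (fun c z hz z0 e => (le_abs_self a).trans (mn c ⟨z, Or.inr hz, z0, e⟩)) ps g3
        (fun u v z => t u v z) (lin t).1 (lin t).2.1 (lin t).2.2
        (by rintro _ ⟨X, hX, rfl⟩ u hu v hv z hz; exact ti X hX u hu.1 v (g2 hv) z hz)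
        w ⟨hw, End.mem_eigenspace_iff.2 wa⟩
    exact Or.inl ⟨w, hw, w0, key N₁ i1 t₁ fun X hX => (ht X hX).1,
      key N₂ i2 t₂ fun X hX => (ht X hX).2⟩
  · have key (N) (iN : Inv h N) (t : V →L[ℝ] V →L[ℝ] V →L[ℝ] ℝ)
        (ti : ∀ X ∈ h, TInv t Yu N Ys X) : ∀ u ∈ Yu, ∀ v ∈ gen (env h) p N, t u v w = 0 := by
      obtain ⟨g1, g2, g3⟩ := gi p N iN pm pp
      intro u hu v hv
      exact hp.neg.half ⟨-R, neg_mem hR, rfl⟩
        (fun M hM v hv => M.sub_mem hv (pM M hM v hv)) pi.one_sub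
        (eg Ys is (fun j hj => (hJ j hj).2) a) g1 (inv_iff.2 iu) (a := -a)
        (fun u hu => by
          have : R u = a • u := End.mem_eigenspace_iff.1 hu.2
          simp [this])
        (fun c z hz z0 e => by
          have := mn (-c) ⟨z, Or.inl hz, z0, by rw [neg_smul]; exact neg_eq_iff_eq_neg.1 e⟩
          simp only [abs_neg] at this
          exact (neg_le_abs a).trans this)
        (fun z hz => by simp [pu z hz]) (fun M hM hT => g3 M hM (by simpa using hT))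
        (fun z v u => t u v z) (fun v u => (lin t).2.2 u v) (fun z u => (lin t).2.1 u z)
        (fun z v => (lin t).1 v z)
        (by
          rintro _ ⟨X, hX, rfl⟩ z hz v hv u hu
          have := ti X hX u hu v (g2 hv) z hz.1
          change t u v (X z) + t u (X v) z + t (X u) v z = 0
          linarith)
        w ⟨hw, End.mem_eigenspace_iff.2 wa⟩ v hv u hu
    exact Or.inr ⟨w, hw, w0, key N₁ i1 t₁ fun X hX => (ht X hX).1,
      key N₂ i2 t₂ fun X hX => (ht X hX).2⟩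

end Crest.Agent.N221.Hu
end

-- ▼ part N221/Hu/JM
section

/-! Row 221, block Hu: `J` is a nilpotent ideal, `A p N = A e^n N`, smooth representative. -/

set_option autoImplicit false
set_option linter.unusedSectionVars false
set_option linter.unusedVariables false

open Set Filter Topology Module Polynomial
open scoped ContDiff

noncomputable section

namespace Crest.Agent.N221.Hu

variable {V : Type} [NormedAddCommGroup V] [NormedSpace ℝ V] [FiniteDimensional ℝ V]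
  {A : Subalgebra ℝ (V →L[ℝ] V)} {a j p e : V →L[ℝ] V} {N : Submodule ℝ V}


lemma rad_left (ha : a ∈ A) (hj : j ∈ rad A) : a * j ∈ rad A :=
  ⟨A.mul_mem ha hj.1, fun b hb => by
    rw [mul_assoc, tr_comm, mul_assoc]; exact hj.2 _ (A.mul_mem hb ha)⟩

lemma rad_right (ha : a ∈ A) (hj : j ∈ rad A) : j * a ∈ rad A :=
  ⟨A.mul_mem hj.1 ha, fun b hb => by rw [mul_assoc]; exact hj.2 _ (A.mul_mem ha hb)⟩

lemma tr_rad (hj : j ∈ rad A) : tr j = 0 := by simpa using hj.2 1 A.one_mem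

/-- an idempotent of `J` vanishes -/
lemma idem_rad (hj : j ∈ rad A) (h : j * j = j) : j = 0 := by
  have h1 : IsIdempotentElem (j : V →ₗ[ℝ] V) := by
    show (j : V →ₗ[ℝ] V) * j = j
    exact congrArg (fun x : V →L[ℝ] V => (x : V →ₗ[ℝ] V)) h
  have := LinearMap.IsIdempotentElem.eq_zero_of_trace_eq_zero h1 (tr_rad hj)
  exact ContinuousLinearMap.coe_injective (by simpa using this)

lemma aeval_mem (ha : a ∈ A) (q : ℝ[X]) : aeval a q ∈ A := by
  rw [aeval_eq_sum_range]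
  exact A.sum_mem fun i _ => A.smul_mem (A.pow_mem ha i) _

/-- every element of `J` is nilpotent -/
lemma rad_nil (hj : j ∈ rad A) : IsNilpotent j := by
  have hi : IsIntegral ℝ j := IsIntegral.of_finite ℝ j
  obtain ⟨q, hq, hn⟩ := exists_eq_pow_rootMultiplicity_mul_and_not_dvd _ (minpoly.ne_zero hi) 0
  set k := (minpoly ℝ j).rootMultiplicity 0
  rw [C_0, sub_zero] at hq hn
  have h0 : q.coeff 0 ≠ 0 := fun h => hn (X_dvd_iff.2 h)
  set r : ℝ[X] := -(C (q.coeff 0)⁻¹ * divX q) with hr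
  have e1 : X ^ k = X ^ k * (X * r) + C (q.coeff 0)⁻¹ * minpoly ℝ j := by
    have := X_mul_divX_add q
    have h2 : C (q.coeff 0)⁻¹ * C (q.coeff 0) = 1 := by rw [← C_mul, inv_mul_cancel₀ h0, C_1]
    rw [hq, hr]
    linear_combination (-(X ^ k : ℝ[X])) * h2 + (C (q.coeff 0)⁻¹ * X ^ k) * this
  set s := j * aeval j r with hs
  have e2 : j ^ k = j ^ k * s := by
    have := congrArg (aeval j) e1
    simpa [hs] using this
  have e3 : ∀ i, j ^ k = j ^ k * s ^ i := fun i => by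
    induction i with
    | zero => simp
    | succ i ih => rw [pow_succ, ← mul_assoc, ← ih, ← e2]
  have hc : Commute j (aeval j r) := by
    have := (Commute.all X r).map (aeval j)
    simpa using this
  have e4 : s ^ (k + 1) * s ^ (k + 1) = s ^ (k + 1) := by
    have : s ^ (k + 1) = (j * aeval j r ^ (k + 1)) * j ^ k := by
      rw [hs, hc.mul_pow, pow_succ' j, mul_assoc, mul_assoc, (hc.pow_pow k (k + 1)).eq]
    calc s ^ (k + 1) * s ^ (k + 1) = (j * aeval j r ^ (k + 1)) * (j ^ k * s ^ (k + 1)) := by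
          rw [← mul_assoc, ← this]
      _ = s ^ (k + 1) := by rw [← e3, ← this]
  have e5 : s ^ (k + 1) = 0 := by
    refine idem_rad (A := A) ?_ e4
    rw [pow_succ']
    exact rad_right (A.pow_mem (A.mul_mem hj.1 (aeval_mem hj.1 r)) k)
      (rad_right (aeval_mem hj.1 r) hj)
  exact ⟨k, by rw [e3 (k + 1), e5, mul_zero]⟩

lemma rad_jac (x : A) (hx : (x : V →L[ℝ] V) ∈ rad A) : x ∈ Ring.jacobson A := by
  rw [← Ideal.jacobson_bot, Ideal.mem_jacobson_iff]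
  intro y
  obtain ⟨k, hk⟩ := rad_nil (rad_left y.2 hx)
  have : IsNilpotent (y * x) := ⟨k, Subtype.ext (by simpa using hk)⟩
  obtain ⟨u, hu⟩ := this.isUnit_add_one
  refine ⟨↑u⁻¹, ?_⟩
  have := u.inv_mul
  rw [hu, mul_add, mul_one, ← mul_assoc] at this
  simp [this]

lemma act_le {S : Set (V →L[ℝ] V)} {M : Submodule ℝ V} (h : ∀ a ∈ S, ∀ v ∈ N, a v ∈ M) :
    act S N ≤ M := Submodule.span_le.2 (by rintro _ ⟨a, ha, v, hv, rfl⟩; exact h a ha v hv)

lemma mem_act {S : Set (V →L[ℝ] V)} {v : V} (ha : a ∈ S) (hv : v ∈ N) : a v ∈ act S N :=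
  Submodule.subset_span ⟨a, ha, v, hv, rfl⟩

instance tower (A : Subalgebra ℝ (V →L[ℝ] V)) : IsScalarTower ℝ A V :=
  ⟨fun c a v => by
    show ((c • a : A) : V →L[ℝ] V) v = c • (a : V →L[ℝ] V) v
    rw [Subalgebra.coe_smul, smul_apply]⟩

/-- dimension of a subspace -/
def dm (W : Submodule ℝ V) : ℕ := finrank ℝ W

lemma jac_chain (R : Type) [Ring R] [Algebra ℝ R] [Module R V] [IsScalarTower ℝ R V] :
    ∃ U : ℕ → Submodule R V, U 0 = ⊤ ∧ U (finrank ℝ V) = ⊥ ∧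
      ∀ k, ∀ x ∈ Ring.jacobson R, ∀ v ∈ U k, x • v ∈ U (k + 1) := by
  have : IsNoetherian R V := isNoetherian_of_tower ℝ inferInstance
  obtain ⟨U, U0, Us⟩ : ∃ U : ℕ → Submodule R V, U 0 = ⊤ ∧
      ∀ k, U (k + 1) = Ring.jacobson R • U k :=
    ⟨fun k => Nat.rec (motive := fun _ => Submodule R V) ⊤ (fun _ W => Ring.jacobson R • W) k,
      rfl, fun _ => rfl⟩
  have key : ∀ k : ℕ, U k = ⊥ ∨ dm ((U k).restrictScalars ℝ) + k ≤ finrank ℝ V := by
    intro k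
    induction k with
    | zero => exact Or.inr (Submodule.finrank_le _)
    | succ k h2 =>
      by_cases hU : U k = ⊥
      · exact Or.inl (by simp [Us, hU])
      · have h3 : U (k + 1) < U k := Us k ▸
          Submodule.FG.jacobson_smul_lt hU (IsNoetherian.noetherian (U k))
        have h4 : (U (k + 1)).restrictScalars ℝ < (U k).restrictScalars ℝ :=
          (Submodule.restrictScalarsEmbedding ℝ R V).strictMono h3
        have h5 : dm _ < dm _ := Submodule.finrank_lt_finrank_of_lt h4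
        have := h2.resolve_left hU
        exact Or.inr (by omega)
  refine ⟨U, U0, (key _).elim id fun h => ?_,
    fun k x hx v hv => Us k ▸ Submodule.smul_mem_smul hx hv⟩
  rw [← Submodule.restrictScalars_eq_bot_iff ℝ]
  have h6 : dm ((U (finrank ℝ V)).restrictScalars ℝ) = 0 := by omega
  exact Submodule.finrank_eq_zero.1 h6

lemma pw_bot (A : Subalgebra ℝ (V →L[ℝ] V)) : pw (rad A) (finrank ℝ V) = ⊥ := by
  obtain ⟨U, h0, h1, h2⟩ := jac_chain (V := V) A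
  have key : ∀ k, pw (rad A) k ≤ (U k).restrictScalars ℝ := fun k => by
    induction k with
    | zero => intro v _; rw [h0]; trivial
    | succ k ih => exact act_le fun a ha v hv => h2 k _ (rad_jac ⟨a, ha.1⟩ ha) v (ih hv)
  refine le_bot_iff.1 fun v hv => ?_
  have := key _ hv
  rwa [h1] at this

theorem jS : JS := fun V _ _ _ A => ⟨fun a ha j hj => ⟨rad_left ha hj, rad_right ha hj⟩, pw_bot A⟩

lemma pow_mem_pw {J : Submodule ℝ (V →L[ℝ] V)} (hj : j ∈ J) (k : ℕ) (v : V) :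
    (j ^ k) v ∈ pw J k := by
  induction k with
  | zero => trivial
  | succ k ih => rw [pow_succ']; exact mem_act (a := j) (v := (j ^ k) v) hj ih

lemma rad_pow (hj : j ∈ rad A) : j ^ finrank ℝ V = 0 := by
  ext v
  have := pow_mem_pw hj (finrank ℝ V) v
  rwa [pw_bot] at this

lemma act_inv : Inv A (act A N) := fun a ha v hv => by
  have : act A N ≤ (act A N).comap (a : V →ₗ[ℝ] V) := act_le fun b hb w hw =>
    Submodule.mem_comap.2 (mem_act (S := A) (a := a * b) (v := w) (A.mul_mem ha hb) hw)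
  exact this hv

lemma mem_gen {v : V} (hv : v ∈ N) : p v ∈ gen A p N :=
  mem_act (a := 1) A.one_mem (Submodule.mem_map_of_mem hv)

lemma gen_inv : Inv A (gen A p N) := act_inv

lemma gen_le {M : Submodule ℝ V} (hM : Inv A M) (h : ∀ v ∈ N, p v ∈ M) : gen A p N ≤ M :=
  act_le (by rintro a ha _ ⟨v, hv, rfl⟩; exact hM a ha _ (h v hv))

lemma pow_gen (hp : p ∈ A) (he : e - p ∈ rad A) (hN : Inv A N) {v : V} (hv : v ∈ N) :
    (e ^ (finrank ℝ V + 1)) v ∈ gen A p N := by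
  have heA : e ∈ A := by simpa using A.add_mem he.1 hp
  have key : ∀ k, (e ^ k) v - ((e - p) ^ k) v ∈ gen A p N := fun k => by
    induction k with
    | zero => simp
    | succ k ih =>
      have h1 := gen_inv e heA _ ih
      have h2 := mem_gen (A := A) (p := p) (hN _ (A.pow_mem he.1 k) v hv)
      convert add_mem h1 h2 using 1
      simp only [pow_succ', mul_apply_eq_comp, map_sub, sub_apply]
      abel
  have := key (finrank ℝ V + 1)
  rwa [pow_succ (e - p), rad_pow he, zero_mul, zero_apply, sub_zero] at this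

theorem mS : MS := by
  intro V _ _ _ A p e N hp hpp he hN
  have heA : e ∈ A := by simpa using A.add_mem he.1 hp
  have h1 : ∀ k, p - e ^ (k + 1) ∈ rad A := fun k => by
    induction k with
    | zero => simpa using (rad A).neg_mem he
    | succ k ih =>
      convert (rad A).sub_mem (rad_left heA ih) (rad_right hp he) using 1
      rw [mul_sub, sub_mul, hpp, ← pow_succ']; abel
  have h2 : p ^ (finrank ℝ V + 1) = p := IsIdempotentElem.pow_succ_eq _ hpp
  refine le_antisymm (gen_le gen_inv fun v hv => ?_) (gen_le gen_inv fun v hv => ?_)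
  · have := pow_gen (A.pow_mem heA _) (h1 (finrank ℝ V)) hN hv
    rwa [h2] at this
  · exact pow_gen hp he hN hv

lemma ift {P E : Type} [NormedAddCommGroup P] [NormedSpace ℝ P] [CompleteSpace P]
    [NormedAddCommGroup E] [NormedSpace ℝ E] [CompleteSpace E] {Φ : P × E → E} {u : P → E} {p : P}
    (hΦ : ContDiffAt ℝ ∞ Φ (p, u p))
    (hi : (fderiv ℝ Φ (p, u p) ∘L ContinuousLinearMap.inr ℝ P E).IsInvertible)
    (hu : ContinuousAt u p) (h0 : ∀ᶠ p' in 𝓝 p, Φ (p', u p') = Φ (p, u p)) :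
    ContDiffAt ℝ ∞ u p := by
  refine (hΦ.contDiffAt_implicitFunction (by simp) hi).congr_of_eventuallyEq ?_
  filter_upwards [(continuousAt_id.prodMk hu).tendsto.eventually
    (hΦ.eventually_apply_eq_iff_implicitFunction (by simp) hi), h0] with p' h1 h2
  exact (h1.1 h2).symm

lemma isInv {E : Type} [NormedAddCommGroup E] [NormedSpace ℝ E] [FiniteDimensional ℝ E]
    {f : E →L[ℝ] E} (h : ∀ x, f x = 0 → x = 0) : f.IsInvertible :=
  ⟨(LinearEquiv.ofInjectiveEndo (f : E →ₗ[ℝ] E) (LinearMap.ker_eq_bot.1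
    (LinearMap.ker_eq_bot'.2 h))).toContinuousLinearEquiv, by ext; rfl⟩

lemma inj_aux {q : (V →L[ℝ] V) →L[ℝ] (V →L[ℝ] V)} {u x : V →L[ℝ] V}
    (qm : ∀ a, q a ∈ A) (q1 : ∀ a ∈ A, a - q a ∈ rad A) (q0 : ∀ a ∈ rad A, q a = 0)
    (qq : ∀ a, q (q a) = q a)
    (h5 : p ∈ A) (h6 : p * p = p) (h7 : ∀ a ∈ A, p * a - a * p ∈ rad A) (hu : p - u ∈ rad A)
    (hx : q (u * q x + q x * u - q x) + (x - q x) = 0) : x = 0 := by
  have uA : u ∈ A := by simpa using A.sub_mem h5 hu.1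
  have hx2 : q (u * q x + q x * u - q x) = 0 := by
    have := congrArg q hx
    rwa [map_add, qq, map_sub _ x, qq, sub_self, add_zero, map_zero] at this
  have yA := qm x
  have yq := qq x
  rw [hx2, zero_add] at hx
  generalize q x = y at *
  have w1 := q1 _ (A.sub_mem (A.add_mem (A.mul_mem uA yA) (A.mul_mem yA uA)) yA)
  rw [hx2, sub_zero] at w1
  have w2 : (p + p - 1) * y ∈ rad A := by
    convert (rad A).add_mem ((rad A).add_mem w1 (h7 y yA)) ((rad A).add_mem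
      (rad_left yA hu) (rad_right yA hu)) using 1
    simp only [mul_sub, sub_mul, add_mul, one_mul]; abel
  have w3 : y ∈ rad A := by
    have := rad_left (A.sub_mem (A.add_mem h5 h5) A.one_mem) w2
    rwa [← mul_assoc, show (p + p - 1) * (p + p - 1) = 1 by
      simp only [mul_sub, sub_mul, add_mul, mul_add, h6, one_mul, mul_one]; abel, one_mul] at this
  rw [q0 y w3] at yq
  rwa [← yq, sub_zero] at hx

lemma der_aux {B : Type} [NormedRing B] [NormedAlgebra ℝ B] {q D : B →L[ℝ] B} {u : B}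
    (e : q u = u) (d1 : HasFDerivAt (fun x => q (q x * q x - q x) + (x - q x)) D u) (x : B) :
    D x = q (u * q x + q x * u - q x) + (x - q x) := by
  have d0 := q.hasFDerivAt (x := u)
  have d2 := (q.hasFDerivAt.comp u ((d0.mul' d0).sub d0)).add ((hasFDerivAt_id u).sub d0)
  rw [d1.unique d2]
  simp [e]

theorem eS : ES := by
  intro P V _ _ _ _ _ _ A p pA pJ z₀ hA hJ hp H
  obtain ⟨q, hqd⟩ : ∃ q : P → (V →L[ℝ] V) →L[ℝ] (V →L[ℝ] V), q = fun z => pA z - pJ z ∘L pA z :=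
    ⟨_, rfl⟩
  have hq : ContDiffAt ℝ ∞ q z₀ := hqd ▸ hA.sub (hJ.clm_comp hA)
  have qa : ∀ z a, q z a = pA z a - pJ z (pA z a) := fun z a => by rw [hqd]; rfl
  obtain ⟨u, hud⟩ : ∃ u : P → V →L[ℝ] V, u = fun z => p z - pJ z (p z) := ⟨_, rfl⟩
  have ua : ∀ z, u z = p z - pJ z (p z) := fun z => by rw [hud]
  rw [← hud]
  let Φ : P × (V →L[ℝ] V) → V →L[ℝ] V := fun w =>
    q w.1 (q w.1 w.2 * q w.1 w.2 - q w.1 w.2) + (w.2 - q w.1 w.2)
  have hq1 : ContDiffAt ℝ ∞ (fun w : P × (V →L[ℝ] V) => q w.1) (z₀, u z₀) :=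
    hq.comp (z₀, u z₀) (f := Prod.fst) contDiffAt_fst
  have hq2 : ContDiffAt ℝ ∞ (fun w : P × (V →L[ℝ] V) => q w.1 w.2) (z₀, u z₀) :=
    hq1.clm_apply contDiffAt_snd
  have hΦ : ContDiffAt ℝ ∞ Φ (z₀, u z₀) :=
    (hq1.clm_apply ((hq2.mul hq2).sub hq2)).add (contDiffAt_snd.sub hq2)
  have H' : ∀ᶠ z in 𝓝 z₀, (∀ a, q z a ∈ A z) ∧ (∀ a ∈ A z, a - q z a ∈ rad (A z)) ∧
      (∀ a ∈ rad (A z), q z a = 0) ∧ (∀ a, q z (q z a) = q z a) ∧ p z - u z ∈ rad (A z) ∧
      q z (u z) = u z ∧ Φ (z, u z) = 0 := by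
    filter_upwards [H] with z ⟨h1, h2, h3, h4, h5, h6, h7⟩
    have qm : ∀ a, q z a ∈ A z := fun a => qa z a ▸ (A z).sub_mem (h1 _) (h3 _).1
    have q0 : ∀ a ∈ rad (A z), q z a = 0 := fun a ha => by rw [qa, h2 a ha.1, h4 a ha, sub_self]
    have qq : ∀ a, q z (q z a) = q z a := fun a => by
      rw [qa z (q z a), h2 _ (qm a), sub_eq_self, qa, map_sub, h4 _ (h3 _), sub_self]
    have hu : p z - u z ∈ rad (A z) := by rw [ua, sub_sub_cancel]; exact h3 _
    have e0 : u z = q z (p z) := by rw [ua, qa, h2 _ h5]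
    have e1 : q z (u z) = u z := by rw [e0, qq]
    have e2 : u z * u z - u z ∈ rad (A z) := by
      convert (rad (A z)).add_mem ((rad (A z)).neg_mem ((rad (A z)).add_mem
        (rad_left (e0 ▸ qm _ : u z ∈ A z) hu) (rad_right h5 hu))) hu using 1
      simp only [mul_sub, sub_mul, h6]; abel
    refine ⟨qm, fun a ha => ?_, q0, qq, hu, e1, ?_⟩
    · rw [qa, h2 a ha, sub_sub_cancel]; exact h3 _
    · show q z (q z (u z) * q z (u z) - q z (u z)) + (u z - q z (u z)) = 0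
      rw [e1, q0 _ e2, sub_self, add_zero]
  refine ift (u := u) hΦ (isInv fun x hx => ?_)
    (hud ▸ hp.sub (hJ.continuousAt.clm_apply hp)) ?_
  · obtain ⟨-, -, -, -, h5, h6, h7⟩ := H.self_of_nhds
    obtain ⟨g1, g2, g3, g4, g5, g6, -⟩ := H'.self_of_nhds
    have d1 : HasFDerivAt (fun x => Φ (z₀, x)) (fderiv ℝ Φ (z₀, u z₀) ∘L
        ContinuousLinearMap.inr ℝ P _) (u z₀) :=
      (hΦ.differentiableAt (by simp)).hasFDerivAt.comp (u z₀) (hasFDerivAt_prodMk_right z₀ (u z₀))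
    rw [der_aux g6 d1] at hx
    exact inj_aux g1 g2 g3 g4 h5 h6 h7 g5 hx
  · filter_upwards [H'] with z hz
    rw [hz.2.2.2.2.2.2, H'.self_of_nhds.2.2.2.2.2.2]

end Crest.Agent.N221.Hu
end
end

-- ▼ part N221/Br/Alg

/-! Row 221, block Br (helper93): the action of `End E` on multilinear forms. -/

set_option autoImplicit false
set_option linter.unusedSectionVars false
set_option linter.unusedVariables false

open Set Filter Topology Module Function
open scoped ContDiff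

noncomputable section

namespace Crest.Agent.N221.Br

variable {E : Type} [NormedAddCommGroup E] [NormedSpace ℝ E] [FiniteDimensional ℝ E] {k : ℕ}

/-- `k`-linear forms -/
abbrev Mu (k : ℕ) (E : Type) [NormedAddCommGroup E] [NormedSpace ℝ E] :=
  ContinuousMultilinearMap ℝ (fun _ : Fin k => E) ℝ

instance finMu : FiniteDimensional ℝ (Mu k E) :=
  Module.Finite.of_injective (ContinuousMultilinearMap.toMultilinearMapLinear (R' := ℝ))
    ContinuousMultilinearMap.toMultilinearMap_injective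

/-- the derivation -/
def dv0 (X : E →L[ℝ] E) (φ : Mu k E) : Mu k E :=
  ∑ i, φ.compContinuousLinearMap (update (fun _ => ContinuousLinearMap.id ℝ E) i X)

lemma dv0_apply (X : E →L[ℝ] E) (φ : Mu k E) (v : Fin k → E) :
    dv0 X φ v = ∑ i, φ (update v i (X (v i))) := by
  rw [dv0, sum_apply]
  refine Finset.sum_congr rfl fun i _ => ?_
  rw [ContinuousMultilinearMap.compContinuousLinearMap_apply]
  congr 1
  funext j
  by_cases h : j = i
  · subst h; simp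
  · simp [update_of_ne h]

/-- the derivation as a bilinear map -/
def dv (k : ℕ) (E : Type) [NormedAddCommGroup E] [NormedSpace ℝ E] [FiniteDimensional ℝ E] :
    (E →L[ℝ] E) →L[ℝ] Mu k E →L[ℝ] Mu k E :=
  LinearMap.toContinuousLinearMap (E := E →L[ℝ] E) (F' := Mu k E →L[ℝ] Mu k E)
    ((LinearMap.toContinuousLinearMap (𝕜 := ℝ) (E := Mu k E) (F' := Mu k E)).toLinearMap ∘ₗ
    LinearMap.mk₂ ℝ (dv0 (E := E) (k := k))
      (fun X Y φ => by ext v; simp [dv0_apply, Finset.sum_add_distrib])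
      (fun c X φ => by ext v; simp [dv0_apply, Finset.mul_sum])
      (fun X φ ψ => by ext v; simp [dv0_apply, Finset.sum_add_distrib])
      (fun c X φ => by ext v; simp [dv0_apply, Finset.mul_sum]))

lemma dv_apply (X : E →L[ℝ] E) (φ : Mu k E) (v : Fin k → E) :
    dv k E X φ v = ∑ i, φ (update v i (X (v i))) := dv0_apply X φ v

/-- the pull back -/
def pb (k : ℕ) (L : E ≃L[ℝ] E) : Mu k E ≃L[ℝ] Mu k E :=
  ContinuousLinearEquiv.continuousMultilinearMapCongrLeft ℝ fun _ => L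

lemma pb_apply (L : E ≃L[ℝ] E) (φ : Mu k E) (v : Fin k → E) : pb k L φ v = φ fun i => L (v i) := rfl

lemma pb_eq (L : E ≃L[ℝ] E) (φ : Mu k E) :
    pb k L φ = φ.compContinuousLinearMap fun _ => (L : E →L[ℝ] E) := rfl

lemma pb_dv (L : E ≃L[ℝ] E) (X : E →L[ℝ] E) (φ : Mu k E) :
    pb k L (dv k E (L.conjContinuousAlgEquiv X) φ) = dv k E X (pb k L φ) := by
  ext v
  simp only [pb_apply, dv_apply]
  refine Finset.sum_congr rfl fun i _ => ?_
  congr 1
  funext j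
  by_cases h : j = i
  · subst h; simp
  · simp [update_of_ne h]

lemma dv_comm (X Y : E →L[ℝ] E) (φ : Mu k E) :
    dv k E (X * Y - Y * X) φ = dv k E Y (dv k E X φ) - dv k E X (dv k E Y φ) := by
  ext v
  simp only [sub_apply, dv_apply]
  rw [Finset.sum_comm (f := fun i j => φ (update (update v i (X (v i))) j (Y (update v i (X (v i)) j)))),
    ← Finset.sum_sub_distrib]
  refine Finset.sum_congr rfl fun i _ => ?_
  rw [← Finset.sum_sub_distrib, Finset.sum_eq_single i]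
  · simp [← ContinuousMultilinearMap.map_update_sub]
  · intro j _ h
    rw [update_of_ne h, update_of_ne h.symm, update_comm h, sub_self]
  · simp

lemma isLog_pb {L : E ≃L[ℝ] E} {D : E →L[ℝ] E} (h : Hm.IsLog L D) :
    Hm.IsLog (pb k L) (dv k E D) :=
  h.pull (ContinuousLinearMap.id ℝ _) (fun _ _ e => e) (fun _ _ => rfl) fun θ v => dv_apply D θ v

/-- the stabiliser of a space of forms -/
def stab (K : Submodule ℝ (Mu k E)) : Submodule ℝ (E →L[ℝ] E) where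
  carrier := {X | ∀ φ ∈ K, dv k E X φ ∈ K}
  add_mem' := fun h h' φ hφ => by simpa using K.add_mem (h φ hφ) (h' φ hφ)
  zero_mem' := fun φ _ => by simp
  smul_mem' := fun c X h φ hφ => by simpa using K.smul_mem c (h φ hφ)

lemma stab_lie (K : Submodule ℝ (Mu k E)) : Hu.IsLie (stab K) := fun X hX Y hY φ hφ => by
  rw [dv_comm]
  exact K.sub_mem (hY _ (hX φ hφ)) (hX _ (hY φ hφ))

lemma stab_eqv {K K' : Submodule ℝ (Mu k E)} {L : E ≃L[ℝ] E} (e : ∀ φ, φ ∈ K' ↔ pb k L φ ∈ K)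
    (X : E →L[ℝ] E) : X ∈ stab K ↔ L.conjContinuousAlgEquiv X ∈ stab K' := by
  refine ⟨fun h φ hφ => (e _).2 ?_, fun h φ hφ => ?_⟩
  · rw [pb_dv]; exact h _ ((e φ).1 hφ)
  · obtain ⟨ψ, rfl⟩ := (pb k L).surjective φ
    rw [← pb_dv]; exact (e _).1 (h _ ((e ψ).2 hφ))

lemma stab_log {K : Submodule ℝ (Mu k E)} {L : E ≃L[ℝ] E} (e : ∀ φ ∈ K, pb k L φ ∈ K)
    {D : E →L[ℝ] E} (h : Hm.IsLog L D) : D ∈ stab K := (isLog_pb h).inv e

/-- the character of a flag with one-dimensional quotient kills commutators -/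
lemma char_comm {K₀ K₁ : Submodule ℝ (Mu k E)} {e : Fin k → E} {σ : Mu k E} (hσ : σ ∈ K₁)
    (h0 : σ e ≠ 0) (hK : ∀ φ, φ ∈ K₀ ↔ φ ∈ K₁ ∧ φ e = 0) {X Y : E →L[ℝ] E}
    (hX : X ∈ stab K₀ ⊓ stab K₁) (hY : Y ∈ stab K₀ ⊓ stab K₁) :
    dv k E (X * Y - Y * X) σ e = 0 := by
  have key : ∀ Z ∈ stab K₀ ⊓ stab K₁, ∀ φ ∈ K₁, dv k E Z φ e * σ e = φ e * dv k E Z σ e := by
    intro Z hZ φ hφ
    have : σ e • φ - φ e • σ ∈ K₀ := (hK _).2 ⟨K₁.sub_mem (K₁.smul_mem _ hφ) (K₁.smul_mem _ hσ), by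
      simp [mul_comm]⟩
    have := ((hK _).1 (hZ.1 _ this)).2
    simp only [map_sub, map_smul, sub_apply,
      smul_apply, smul_eq_mul] at this
    linarith
  apply mul_right_cancel₀ h0
  rw [dv_comm, sub_apply, sub_mul, key Y hY _ (hX.2 σ hσ),
    key X hX _ (hY.2 σ hσ)]
  ring

/-- Cramer: the character is the trace -/
lemma sum_det_update {V : Type} [AddCommGroup V] [Module ℝ V] (b : Basis (Fin k) ℝ V)
    (ψ : V [⋀^Fin k]→ₗ[ℝ] ℝ) (N : V →ₗ[ℝ] V) :
    ∑ i, ψ (update b i (N (b i))) = LinearMap.trace ℝ V N * ψ b := by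
  have h1 : ∀ i u, ψ (update b i u) = b.repr u i * ψ b := fun i u => by
    conv_lhs => rw [ψ.eq_smul_basis_det b]
    rw [AlternatingMap.smul_apply, Basis.det_apply, Basis.toMatrix_update, Basis.toMatrix_self,
      ← Matrix.cramer_apply, Matrix.cramer_one]
    simp [mul_comm]
  rw [LinearMap.trace_eq_matrix_trace ℝ b, Matrix.trace, Finset.sum_mul]
  exact Finset.sum_congr rfl fun i _ => by rw [h1, Matrix.diag_apply, LinearMap.toMatrix_apply]

end Crest.Agent.N221.Br
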